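import Vale.Agent.P092.H613.Alg2

/-!
P092, one simple factor, real case: `opp` = opposite pairs commute (step (5)), `all` = the points
commute (step (6)), from incidence with a middle operator and two points nowhere agree.
-/

namespace Vale.Agent.P092.H613

open Finset Topology

set_option linter.unusedSectionVars false
set_option linter.unusedSimpArgs false

variable {K : Type*} [NormedAddCommGroup K] [InnerProductSpace ℂ K] [CompleteSpace K]

/-- two families of points agree nowhere -/
def NoAgree (e₁ e₂ : M3 (K →L[ℂ] K)) : Prop :=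
  ∀ ξ : K, (∀ w, word e₁ w ξ = word e₂ w ξ) → ξ = 0

/-- operators `X` with `e X n = 0` -/
def XX (e n : M3 (K →L[ℂ] K)) : Submodule ℂ (K →L[ℂ] K) where
  carrier := {X | ∀ i j, ∑ k, e i k * X * n k j = 0}
  add_mem' := by
    intro X Y hX hY i j
    simp only [mul_add, add_mul, Finset.sum_add_distrib]
    rw [hX i j, hY i j, add_zero]
  zero_mem' := by intro i j; simp
  smul_mem' := by
    intro c X hX i j
    have : ∀ k, e i k * (c • X) * n k j = c • (e i k * X * n k j) := by
      intro k; rw [mul_smul_comm, smul_mul_assoc]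
    simp only [this, ← Finset.smul_sum]
    rw [hX i j, smul_zero]

theorem mem_XX {e n : M3 (K →L[ℂ] K)} {X : K →L[ℂ] K} :
    X ∈ XX e n ↔ ∀ i j, ∑ k, e i k * X * n k j = 0 := Iff.rfl

theorem XX_sandwich {e n : M3 (K →L[ℂ] K)} (hn : R1 n) (hc : Com3 e n) {X : K →L[ℂ] K}
    (hX : X ∈ XX e n) (a c b d : Fin 3) : n a c * X * n b d ∈ XX e n := by
  intro i j
  have h1 : ∀ k, e i k * (n a c * X * n b d) * n k j
      = n a c * (e i k * X * n k j) * n b d := by
    intro k
    calc e i k * (n a c * X * n b d) * n k j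
        = (e i k * n a c) * X * (n b d * n k j) := by simp only [mul_assoc]
      _ = (n a c * e i k) * X * (n k j * n b d) := by rw [hc, hn.cm b d k j]
      _ = _ := by simp only [mul_assoc]
  simp only [h1]
  rw [← Finset.sum_mul, ← Finset.mul_sum, hX i j]
  simp

theorem XX_Psi {e n : M3 (K →L[ℂ] K)} (hn : R1 n) (hc : Com3 e n) {X : K →L[ℂ] K}
    (hX : X ∈ XX e n) : Psi n n X ∈ XX e n :=
  Submodule.sum_mem _ fun a _ => Submodule.sum_mem _ fun b _ => XX_sandwich hn hc hX a b a b

theorem XX_D {e n : M3 (K →L[ℂ] K)} (hn : R1 n) (hc : Com3 e n) {X : K →L[ℂ] K}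
    (hX : X ∈ XX e n) (i j : Fin 3) : D n n i j X ∈ XX e n := by
  unfold D
  refine Submodule.sum_mem _ fun a _ => Submodule.sum_mem _ fun b _ =>
    Submodule.sum_mem _ fun c _ => Submodule.sum_mem _ fun d _ => ?_
  exact zsmul_mem (XX_sandwich hn hc hX a c b d) _

/-- `e_{ij} (X - Ψ X) = D_{ij}(X)`. -/
theorem e_mul_sub_Psi {e n : M3 (K →L[ℂ] K)} (he : R1 e) (hn : R1 n) (hc : Com3 e n)
    (hi : Inc3 e n) {X : K →L[ℂ] K} (hX : X ∈ XX e n) (i j : Fin 3) :
    e i j * (X - Psi n n X) = D n n i j X := by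
  have hi' := hi.symm he hn
  have hI : Inc n (fun k l => e k l * X) n := by
    refine ⟨fun a j => ?_, fun b j => ?_, fun a i => ?_, fun b i => ?_⟩
    · have : ∀ k, n a k * (e k j * X) = (n a k * e k j) * X := fun k => by rw [mul_assoc]
      simp only [this]
      rw [← Finset.sum_mul, hi' a j, zero_mul]
    · have h1 := hX j b
      rw [← h1]
      exact Finset.sum_congr rfl fun k _ => by rw [he.sym k j]
    · have : ∀ k, n a k * (e i k * X) = (n a k * e k i) * X := fun k => by
        rw [mul_assoc, he.sym i k]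
      simp only [this]
      rw [← Finset.sum_mul, hi' a i, zero_mul]
    · exact hX i b
  have := lemmaL hn.sym hn.sym hn.tr hn.tr hI i j
  rw [← Finset.sum_mul, he.tr, one_mul] at this
  rw [← this, mul_sub]
  congr 1
  unfold Psi
  simp only [Finset.mul_sum]
  refine Finset.sum_congr rfl fun a _ => Finset.sum_congr rfl fun b _ => ?_
  have := hc i j a b
  simp only [← mul_assoc]
  rw [this]

theorem e_mul_T {e n : M3 (K →L[ℂ] K)} (hc : Com3 e n) (i j : Fin 3) (r : ℕ) (Z : K →L[ℂ] K) :
    e i j * (((1 - PsiL n) ^ r) Z) = ((1 - PsiL n) ^ r) (e i j * Z) := by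
  induction r generalizing Z with
  | zero => simp
  | succ r ih =>
    rw [pow_succ]
    have h1 : ∀ Z, ((1 - PsiL n) ^ r * (1 - PsiL n)) Z = ((1 - PsiL n) ^ r) ((1 - PsiL n) Z) :=
      fun Z => rfl
    rw [h1, h1, ih]
    congr 1
    have h2 : ∀ Z, (1 - PsiL n) Z = Z - Psi n n Z := by
      intro Z
      rw [← PsiL_apply]; rfl
    rw [h2, h2, mul_sub]
    congr 1
    unfold Psi
    simp only [Finset.mul_sum]
    refine Finset.sum_congr rfl fun a _ => Finset.sum_congr rfl fun b _ => ?_
    have := hc i j a b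
    simp only [← mul_assoc]
    rw [this]

/-- words of length `r` agree on `(1-Ψ)^r`. -/
theorem words_agree {e₁ e₂ n : M3 (K →L[ℂ] K)} (h1 : R1 e₁) (h2 : R1 e₂) (hn : R1 n)
    (c1 : Com3 e₁ n) (c2 : Com3 e₂ n) (i1 : Inc3 e₁ n) (i2 : Inc3 e₂ n)
    (w : List (Fin 3 × Fin 3)) : ∀ X ∈ XX e₁ n ⊓ XX e₂ n,
      word e₁ w * (((1 - PsiL n) ^ w.length) X) = word e₂ w * (((1 - PsiL n) ^ w.length) X) := by
  induction w using List.reverseRecOn with
  | nil => intro X _; simp
  | append_singleton w p ih =>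
    intro X hX
    have hXX := Submodule.mem_inf.1 hX
    have hT : ∀ Z, ((1 - PsiL n) ^ (w ++ [p]).length) Z
        = ((1 - PsiL n) ^ w.length) ((1 - PsiL n) Z) := by
      intro Z
      rw [List.length_append, List.length_singleton, pow_succ]
      rfl
    have h3 : (1 - PsiL n) X = X - Psi n n X := by rw [← PsiL_apply]; rfl
    have e1 : e₁ p.1 p.2 * ((1 - PsiL n) X) = D n n p.1 p.2 X := by
      rw [h3]; exact e_mul_sub_Psi h1 hn c1 i1 hXX.1 _ _
    have e2 : e₂ p.1 p.2 * ((1 - PsiL n) X) = D n n p.1 p.2 X := by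
      rw [h3]; exact e_mul_sub_Psi h2 hn c2 i2 hXX.2 _ _
    have hD : D n n p.1 p.2 X ∈ XX e₁ n ⊓ XX e₂ n :=
      Submodule.mem_inf.2 ⟨XX_D hn c1 hXX.1 _ _, XX_D hn c2 hXX.2 _ _⟩
    rw [word_append_singleton, word_append_singleton, hT, mul_assoc, mul_assoc,
      e_mul_T c1, e_mul_T c2, e1, e2]
    exact ih _ hD

/-- **(5) opposite pairs commute.** `x` = the operators of the point `b` off the line `m`, `n` = the
operators of `m`, `e₁, e₂` = the operators of two points of `m`. -/
theorem opp {e₁ e₂ n x : M3 (K →L[ℂ] K)} (h1 : R1 e₁) (h2 : R1 e₂) (hn : R1 n) (hx : R1 x)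
    (i1 : Inc3 e₁ n) (i2 : Inc3 e₂ n)
    (k1 : ∀ a b i j, ∑ k, e₁ i k * x a b * n k j = 0)
    (k2 : ∀ a b i j, ∑ k, e₂ i k * x a b * n k j = 0)
    (ag : NoAgree e₁ e₂) : Com3 x n := by
  have c1 := com_of_inc h1 hn i1
  have c2 := com_of_inc h2 hn i2
  have hfix : ∀ X ∈ XX e₁ n ⊓ XX e₂ n, Psi n n X = X := by
    intro X hX
    have hS : ∀ Y ∈ XX e₁ n ⊓ XX e₂ n, PsiL n Y ∈ XX e₁ n ⊓ XX e₂ n := by
      intro Y hY
      rw [PsiL_apply]
      exact Submodule.mem_inf.2 ⟨XX_Psi hn c1 hY.1, XX_Psi hn c2 hY.2⟩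
    have hw : ∀ w, (word e₁ w - word e₂ w) * ((1 - PsiL n) X) = 0 := by
      intro w
      rcases Nat.eq_zero_or_pos w.length with h0 | h0
      · rw [List.length_eq_zero_iff] at h0
        subst h0; simp
      · obtain ⟨r, hr⟩ := Nat.exists_eq_succ_of_ne_zero h0.ne'
        have := ergodic_step (PsiL n) (norm_PsiL_le hn) (XX e₁ n ⊓ XX e₂ n) hS
          (ContinuousLinearMap.mul ℂ (K →L[ℂ] K) (word e₁ w - word e₂ w)) r (by
            intro Y hY
            have := words_agree h1 h2 hn c1 c2 i1 i2 w Y hY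
            rw [hr] at this
            simp only [ContinuousLinearMap.mul_apply']
            rw [sub_mul, sub_eq_zero]
            exact this) X hX
        exact this
    have h3 : (1 - PsiL n) X = X - Psi n n X := by rw [← PsiL_apply]; rfl
    have h4 : (1 - PsiL n) X = 0 := by
      ext ξ
      refine ag _ fun w => ?_
      have := congrArg (fun (A : K →L[ℂ] K) => A ξ) (hw w)
      simp only [sub_mul] at this
      have h5 : (word e₁ w * (1 - PsiL n) X) ξ - (word e₂ w * (1 - PsiL n) X) ξ = 0 := this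
      exact sub_eq_zero.1 h5
    rw [h3, sub_eq_zero] at h4
    exact h4.symm
  have := comm_of_fix hn (univ ×ˢ univ : Finset (Fin 3 × Fin 3)) (fun p => x p.1 p.2)
    (fun p _ => hx.sa _ _) (fun p _ => hfix _ (Submodule.mem_inf.2 ⟨k1 _ _, k2 _ _⟩)) (by
      rw [Finset.sum_product]
      rw [hx.sq, Psi_one hn])
  intro i j k l
  exact (this (i, j) (by simp) k l).symm

/-- **(6)** the operators of the intersection point `e` of two lines `n₁, n₂` commute with the
commutant of the two lines. -/
theorem all {e n₁ n₂ : M3 (K →L[ℂ] K)} (he : R1 e) (h1 : R1 n₁) (h2 : R1 n₂)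
    (i1 : Inc3 e n₁) (i2 : Inc3 e n₂) (ag : NoAgree n₁ n₂) (X : K →L[ℂ] K)
    (x1 : ∀ k l, X * n₁ k l = n₁ k l * X) (x2 : ∀ k l, X * n₂ k l = n₂ k l * X) (i j : Fin 3) :
    X * e i j = e i j * X := by
  have c1 := com_of_inc he h1 i1
  have c2 := com_of_inc he h2 i2
  have i1' := i1.symm he h1
  set Δ : K →L[ℂ] K := 1 - ∑ k, ∑ l, n₁ k l * n₂ k l with hΔ
  have hI : Inc n₁ e n₂ := by
    refine ⟨fun a j => i1' a j, fun b j => ?_, fun a i => ?_, fun b i => i2 i b⟩
    · rw [← i2 j b]
      exact Finset.sum_congr rfl fun k _ => by rw [he.sym k j]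
    · rw [← i1' a i]
      exact Finset.sum_congr rfl fun k _ => by rw [he.sym i k]
  have hL := lemmaL h1.sym h2.sym h1.tr h2.tr hI i j
  rw [he.tr] at hL
  have h3 : e i j * Δ = D n₁ n₂ i j 1 := by
    rw [← hL, hΔ, mul_sub, mul_one]
    congr 1
    unfold Psi
    simp only [Finset.mul_sum]
    refine Finset.sum_congr rfl fun a _ => Finset.sum_congr rfl fun b _ => ?_
    rw [← mul_assoc, c1]
  have hXD : X * D n₁ n₂ i j 1 = D n₁ n₂ i j 1 * X := by
    unfold D
    simp only [Finset.mul_sum, Finset.sum_mul]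
    refine Finset.sum_congr rfl fun a _ => Finset.sum_congr rfl fun b _ =>
      Finset.sum_congr rfl fun c _ => Finset.sum_congr rfl fun d _ => ?_
    rw [mul_smul_comm, smul_mul_assoc, mul_one]
    congr 1
    rw [← mul_assoc, x1, mul_assoc, x2, mul_assoc]
  have hXΔ : X * Δ = Δ * X := by
    rw [hΔ, mul_sub, sub_mul, mul_one, one_mul]
    congr 1
    simp only [Finset.mul_sum, Finset.sum_mul]
    refine Finset.sum_congr rfl fun a _ => Finset.sum_congr rfl fun b _ => ?_
    rw [← mul_assoc, x1, mul_assoc, x2, mul_assoc]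
  set W : K →L[ℂ] K := X * e i j - e i j * X with hW
  have hWΔ : W * Δ = 0 := by
    rw [hW, sub_mul, mul_assoc, h3, mul_assoc, hXΔ, ← mul_assoc, h3, hXD, sub_self]
  have hW1 : ∀ k l, n₁ k l * W = W * n₁ k l := by
    intro k l
    rw [hW, mul_sub, sub_mul]
    congr 1
    · rw [← mul_assoc, ← x1, mul_assoc, ← c1, mul_assoc]
    · rw [← mul_assoc, ← c1, mul_assoc, ← x1, mul_assoc]
  have hW2 : ∀ k l, n₂ k l * W = W * n₂ k l := by
    intro k l
    rw [hW, mul_sub, sub_mul]
    congr 1
    · rw [← mul_assoc, ← x2, mul_assoc, ← c2, mul_assoc]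
    · rw [← mul_assoc, ← c2, mul_assoc, ← x2, mul_assoc]
  -- adjoints
  have hs1 : ∀ k l, n₁ k l * star W = star W * n₁ k l := by
    intro k l
    have := congrArg star (hW1 k l)
    rw [star_mul, star_mul, h1.sa] at this
    exact this.symm
  have hs2 : ∀ k l, n₂ k l * star W = star W * n₂ k l := by
    intro k l
    have := congrArg star (hW2 k l)
    rw [star_mul, star_mul, h2.sa] at this
    exact this.symm
  have hsΔ : star Δ * star W = 0 := by
    have := congrArg star hWΔ
    rwa [star_mul, star_zero] at this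
  -- on the range of `star W` the two lines agree
  have hagree : ∀ k l, n₁ k l * star W = n₂ k l * star W := by
    have hz : ∑ p ∈ (univ ×ˢ univ : Finset (Fin 3 × Fin 3)),
        star ((n₁ p.1 p.2 - n₂ p.1 p.2) * star W) * ((n₁ p.1 p.2 - n₂ p.1 p.2) * star W) = 0 := by
      rw [Finset.sum_product]
      have hexp : ∀ k l, star ((n₁ k l - n₂ k l) * star W) * ((n₁ k l - n₂ k l) * star W)
          = W * (n₁ k l * n₁ k l + n₂ k l * n₂ k l - n₁ k l * n₂ k l - n₂ k l * n₁ k l)
            * star W := by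
        intro k l
        rw [star_mul, star_star, star_sub, h1.sa, h2.sa]
        noncomm_ring
      simp only [hexp]
      simp only [← Finset.sum_mul, ← Finset.mul_sum, Finset.sum_sub_distrib,
        Finset.sum_add_distrib, h1.sq, h2.sq]
      have e1 : ∑ k, ∑ l, n₁ k l * n₂ k l = 1 - Δ := by rw [hΔ]; abel
      have e2 : ∑ k, ∑ l, n₂ k l * n₁ k l = 1 - star Δ := by
        rw [hΔ, star_sub, star_one, star_sum]
        simp only [star_sum, star_mul, h1.sa, h2.sa]
        abel
      rw [e1, e2]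
      have e3 : W * (1 + 1 - (1 - Δ) - (1 - star Δ)) * star W
          = (W * Δ) * star W + W * (star Δ * star W) := by noncomm_ring
      rw [e3, hWΔ, hsΔ]
      simp
    intro k l
    have := sum_star_mul_eq_zero _ _ hz (k, l) (by simp)
    simp only [sub_mul] at this
    exact sub_eq_zero.1 this
  have hword : ∀ w, word n₁ w * star W = word n₂ w * star W := by
    intro w
    have hcw : ∀ w, word n₂ w * star W = star W * word n₂ w := by
      intro w
      induction w using List.reverseRecOn with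
      | nil => simp
      | append_singleton w p ih =>
        rw [word_append_singleton, mul_assoc, hs2, ← mul_assoc, ih, mul_assoc]
    induction w using List.reverseRecOn with
    | nil => simp
    | append_singleton w p ih =>
      rw [word_append_singleton, word_append_singleton, mul_assoc, mul_assoc, hagree, hs2,
        ← mul_assoc, ih, ← mul_assoc]
  have hW0 : star W = 0 := by
    ext ξ
    refine ag _ fun w => ?_
    have := congrArg (fun (A : K →L[ℂ] K) => A ξ) (hword w)
    exact this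
  have : W = 0 := by
    have := congrArg star hW0
    simpa using this
  exact sub_eq_zero.1 this

end Vale.Agent.P092.H613
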