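import Vale.Agent.P092.H820.Pn

/-!
P092, Team D, k = ℝ: the functions `zz i j [v] = v_i v_j / |v|²` on the projective plane and the
partitions of unity with few members near any line.
-/

namespace Vale.Agent.P092.H613

open Finset TopologicalSpace Topology
open scoped LinearAlgebra.Projectivization
open Vale.Agent.P092.H820

/-- points, or lines in coordinates -/
abbrev P2 := ℙ ℝ (Fin 3 → ℝ)

/-- `v_i v_j / |v|²` -/
noncomputable def zf (i j : Fin 3) (v : Fin 3 → ℝ) : ℝ := v i * v j / ∑ k, v k ^ 2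

theorem sq_pos {v : Fin 3 → ℝ} (hv : v ≠ 0) : 0 < ∑ k, v k ^ 2 := by
  obtain ⟨i, hi⟩ : ∃ i, v i ≠ 0 := by
    by_contra hc
    push Not at hc
    exact hv (funext hc)
  exact Finset.sum_pos' (fun i _ => sq_nonneg _) ⟨i, mem_univ i, by positivity⟩

theorem zf_smul (i j : Fin 3) (v : Fin 3 → ℝ) (c : ℝ) (hc : c ≠ 0) : zf i j (c • v) = zf i j v := by
  unfold zf
  simp only [Pi.smul_apply, smul_eq_mul, mul_pow, ← Finset.mul_sum]
  have : c * v i * (c * v j) = c ^ 2 * (v i * v j) := by ring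
  rw [this, mul_div_mul_left _ _ (pow_ne_zero 2 hc)]

/-- `zz i j [v] = v_i v_j / |v|²` as a continuous function on the projective plane. -/
noncomputable def zz (i j : Fin 3) : C(P2, ℝ) where
  toFun x := Quotient.lift (fun v : {v : Fin 3 → ℝ // v ≠ 0} => zf i j v.1) (by
    intro v w h
    obtain ⟨c, hc⟩ := h
    have : v.1 = (c : ℝ) • w.1 := by
      rw [← hc]; rfl
    simp only [this]
    exact zf_smul i j w.1 c c.ne_zero) x
  continuous_toFun := by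
    refine (pj_oq (k := ℝ) (ι := Fin 3)).isQuotientMap.continuous_iff.2 ?_
    have h1 : Continuous fun v : {v : Fin 3 → ℝ // v ≠ 0} => v.1 i * v.1 j := by
      have h0 : Continuous fun v : Fin 3 → ℝ => v i * v j := by fun_prop
      exact h0.comp continuous_subtype_val
    have h2 : Continuous fun v : {v : Fin 3 → ℝ // v ≠ 0} => ∑ k, v.1 k ^ 2 := by
      have h0 : Continuous fun v : Fin 3 → ℝ => ∑ k, v k ^ 2 := by fun_prop
      exact h0.comp continuous_subtype_val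
    exact h1.div h2 fun v => (sq_pos v.2).ne'

theorem zz_mk (i j : Fin 3) (v : Fin 3 → ℝ) (hv : v ≠ 0) :
    zz i j (Projectivization.mk ℝ v hv) = v i * v j / ∑ k, v k ^ 2 := rfl

theorem zz_mk_unit (i j : Fin 3) (v : Fin 3 → ℝ) (hv : v ≠ 0) (h1 : ∑ k, v k ^ 2 = 1) :
    zz i j (Projectivization.mk ℝ v hv) = v i * v j := by
  rw [zz_mk, h1, div_one]

/-- every point has a unit representative -/
theorem exists_unit (x : P2) : ∃ (v : Fin 3 → ℝ) (hv : v ≠ 0), ∑ k, v k ^ 2 = 1 ∧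
    x = Projectivization.mk ℝ v hv := by
  obtain ⟨v, rfl⟩ := pj_surj x
  have h := sq_pos v.2
  set c := (Real.sqrt (∑ k, v.1 k ^ 2))⁻¹ with hc
  have hc0 : c ≠ 0 := inv_ne_zero (Real.sqrt_ne_zero'.2 h)
  refine ⟨c • v.1, smul_ne_zero hc0 v.2, ?_, ?_⟩
  · simp only [Pi.smul_apply, smul_eq_mul, mul_pow, ← Finset.mul_sum]
    rw [hc, inv_pow, Real.sq_sqrt h.le, inv_mul_cancel₀ h.ne']
  · refine (Projectivization.mk_eq_mk_iff' ℝ _ _ v.2 _).2 ⟨c⁻¹, ?_⟩
    rw [smul_smul, inv_mul_cancel₀ hc0, one_smul]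

/-- Partition of unity of mesh `r` with few members near any line. -/
structure Cov3 (ε r : ℝ) where
  ι : Type
  fin : Fintype ι
  χ : ι → C(P2, ℝ)
  p : ι → Fin 3 → ℝ
  unit : ∀ a, ∑ i, p a i ^ 2 = 1
  sum : ∀ x, ∑ a, χ a x ^ 2 = 1
  near : ∀ a (v : Fin 3 → ℝ) (hv : v ≠ 0), ∑ i, v i ^ 2 = 1 →
    χ a (Projectivization.mk ℝ v hv) ≠ 0 →
    ∃ s : ℝ, (s = 1 ∨ s = -1) ∧ ∑ i, (v i - s * p a i) ^ 2 ≤ r ^ 2
  few : ∀ n : Fin 3 → ℝ, ∑ i, n i ^ 2 = 1 →
    ((univ.filter fun a => (∑ i, p a i * n i) ^ 2 ≤ 16 * r ^ 2).card : ℝ) * r ^ 2 ≤ ε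

/-- the partition-of-unity input [D-SYN-P] -/
def SynP : Prop := ∀ ε > 0, ∃ r, 0 < r ∧ r < ε ∧ Nonempty (Cov3 ε r)

end Vale.Agent.P092.H613
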