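import Vale.Agent.P092.H613.SynDef
import Vale.Agent.P092.H218.Loc

/-!
P092, Team D, k = ℝ: the synthesis lemma.  If `β u * T * λ g = 0` whenever no point of the support
of `u` is on a line of the support of `g`, then `∑ k, β (z_i z_k) * T * λ (n_k n_j) = 0`.
-/

namespace Vale.Agent.P092.H613

open Finset TopologicalSpace Topology
open scoped LinearAlgebra.Projectivization
open Vale.Agent.P092.H820 Vale.Agent.P092.H218

set_option linter.unusedSectionVars false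

variable {K : Type*} [NormedAddCommGroup K] [InnerProductSpace ℂ K] [CompleteSpace K]

/-- no point of `A` is on a line of `B` -/
def NI (A B : Set P2) : Prop := ∀ x ∈ A, ∀ l ∈ B, (x, l) ∉ inc3 (k := ℝ)

/-- `⟨p, n⟩²` for a unit vector `n` -/
noncomputable def sq2 (p : Fin 3 → ℝ) : C(P2, ℝ) := ∑ k, ∑ l, (p k * p l) • zz k l

theorem sq2_mk (p v : Fin 3 → ℝ) (hv : v ≠ 0) (h1 : ∑ k, v k ^ 2 = 1) :
    sq2 p (Projectivization.mk ℝ v hv) = (∑ i, p i * v i) ^ 2 := by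
  unfold sq2
  simp only [ContinuousMap.sum_apply, ContinuousMap.smul_apply, zz_mk_unit _ _ _ hv h1, smul_eq_mul]
  simp only [Fin.sum_univ_three]
  ring

theorem inc_iff (v w : Fin 3 → ℝ) (hv : v ≠ 0) (hw : w ≠ 0) :
    (Projectivization.mk ℝ v hv, Projectivization.mk ℝ w hw) ∈ inc3 (k := ℝ) ↔
      ∑ i, v i * w i = 0 := Iff.rfl

theorem bessel3 (p v n : Fin 3 → ℝ) (hp : ∑ i, p i ^ 2 = 1) (hv : ∑ i, v i ^ 2 = 1)
    (hn : ∑ i, n i ^ 2 = 1) (h : ∑ i, v i * n i = 0) :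
    (∑ i, p i * v i) ^ 2 + (∑ i, p i * n i) ^ 2 ≤ 1 := by
  set A := ∑ i, p i * v i with hA
  set B := ∑ i, p i * n i with hB
  have h0 : 0 ≤ ∑ i, (p i - A * v i - B * n i) ^ 2 := Finset.sum_nonneg fun i _ => sq_nonneg _
  have h1 : ∑ i, (p i - A * v i - B * n i) ^ 2
      = ∑ i, p i ^ 2 + A ^ 2 * ∑ i, v i ^ 2 + B ^ 2 * ∑ i, n i ^ 2 - 2 * A * ∑ i, p i * v i
        - 2 * B * ∑ i, p i * n i + 2 * A * B * ∑ i, v i * n i := by
    simp only [Fin.sum_univ_three]; ring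
  rw [h1, hp, hv, hn, h, ← hA, ← hB] at h0
  nlinarith

theorem sq2_inc (p : Fin 3 → ℝ) (hp : ∑ i, p i ^ 2 = 1) {x l : P2} (h : (x, l) ∈ inc3 (k := ℝ)) :
    sq2 p x + sq2 p l ≤ 1 := by
  obtain ⟨v, hv, hv1, rfl⟩ := exists_unit x
  obtain ⟨n, hn, hn1, rfl⟩ := exists_unit l
  rw [sq2_mk p v hv hv1, sq2_mk p n hn hn1]
  exact bessel3 p v n hp hv1 hn1 ((inc_iff v n hv hn).1 h)

/-- the cut-off `1` for `s ≤ 2 r²`, `0` for `s ≥ 4 r²` -/
noncomputable def psi (r : ℝ) (p : Fin 3 → ℝ) : C(P2, ℝ) :=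
  ⟨fun x => cl (2 - sq2 p x / (2 * r ^ 2)), cl_cont.comp (by fun_prop)⟩

theorem psi_nonneg (r : ℝ) (p : Fin 3 → ℝ) (x : P2) : 0 ≤ psi r p x := cl_nonneg _
theorem psi_le_one (r : ℝ) (p : Fin 3 → ℝ) (x : P2) : psi r p x ≤ 1 := cl_le_one _

theorem psi_eq_zero {r : ℝ} (hr : 0 < r) {p : Fin 3 → ℝ} {x : P2} (h : 4 * r ^ 2 ≤ sq2 p x) :
    psi r p x = 0 := by
  refine cl_of_le ?_
  have : 2 ≤ sq2 p x / (2 * r ^ 2) := by
    rw [le_div_iff₀ (by positivity)]; linarith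
  linarith

theorem psi_eq_one {r : ℝ} (hr : 0 < r) {p : Fin 3 → ℝ} {x : P2} (h : sq2 p x ≤ 2 * r ^ 2) :
    psi r p x = 1 := by
  refine cl_of_ge ?_
  have : sq2 p x / (2 * r ^ 2) ≤ 1 := by
    rw [div_le_one (by positivity)]; exact h
  linarith

theorem tsupport_toC_subset {f : C(P2, ℝ)} {C : Set P2} (hC : IsClosed C)
    (h : ∀ x, f x ≠ 0 → x ∈ C) : tsupport ⇑(toC f) ⊆ C := by
  refine closure_minimal ?_ hC
  intro x hx
  refine h x fun h0 => hx ?_
  rw [toC_apply, h0]; simp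

theorem NI_supp {ε r : ℝ} (hr : 0 < r) (c : Cov3 ε r) (a : c.ι) (f : C(P2, ℝ)) :
    NI (tsupport ⇑(toC (c.χ a))) (tsupport ⇑(toC (f * (1 - psi r (c.p a))))) := by
  have h1 : tsupport ⇑(toC (c.χ a)) ⊆ {x | 1 - r ^ 2 ≤ sq2 (c.p a) x} := by
    refine tsupport_toC_subset (isClosed_le continuous_const (sq2 (c.p a)).continuous) ?_
    intro x hx
    obtain ⟨v, hv, hv1, rfl⟩ := exists_unit x
    obtain ⟨s, hs, hd⟩ := c.near a v hv hv1 hx
    have hu := c.unit a
    change 1 - r ^ 2 ≤ sq2 (c.p a) _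
    rw [sq2_mk _ _ hv hv1]
    have hs2 : s ^ 2 = 1 := by rcases hs with h | h <;> rw [h] <;> norm_num
    set p := c.p a
    have e : ∑ i, (v i - s * p i) ^ 2 = ∑ i, v i ^ 2 + s ^ 2 * ∑ i, p i ^ 2
        - 2 * s * ∑ i, p i * v i := by
      simp only [Fin.sum_univ_three]; ring
    rw [e, hv1, hu, hs2] at hd
    set A := ∑ i, p i * v i
    have hA : (s * A) ^ 2 = A ^ 2 := by rw [mul_pow, hs2, one_mul]
    rw [← hA]
    nlinarith [sq_nonneg (1 - s * A), sq_nonneg r]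
  have h2 : tsupport ⇑(toC (f * (1 - psi r (c.p a)))) ⊆ {x | 2 * r ^ 2 ≤ sq2 (c.p a) x} := by
    refine tsupport_toC_subset (isClosed_le continuous_const (sq2 (c.p a)).continuous) ?_
    intro x hx
    by_contra hc
    refine hx ?_
    have : psi r (c.p a) x = 1 := psi_eq_one hr (not_le.1 hc).le
    simp [this]
  intro x hx l hl hinc
  have h3 := sq2_inc (c.p a) (c.unit a) hinc
  have h4 := h1 hx
  have h5 := h2 hl
  simp only [Set.mem_ofPred_eq] at h4 h5
  nlinarith [sq_pos_of_pos hr]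

/-- `n ↦ p_i ⟨p, n⟩ n_j` -/
noncomputable def gg (p : Fin 3 → ℝ) (i j : Fin 3) : C(P2, ℝ) := ∑ k, (p i * p k) • zz k j

theorem coord_sq_le {v : Fin 3 → ℝ} (h : ∑ k, v k ^ 2 = 1) (i : Fin 3) : v i ^ 2 ≤ 1 := by
  rw [← h]
  exact Finset.single_le_sum (f := fun k => v k ^ 2) (fun k _ => sq_nonneg _) (mem_univ i)

theorem gg_sq_le (p : Fin 3 → ℝ) (hp : ∑ i, p i ^ 2 = 1) (i j : Fin 3) (x : P2) :
    (gg p i j x) ^ 2 ≤ sq2 p x := by
  obtain ⟨n, hn, hn1, rfl⟩ := exists_unit x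
  rw [sq2_mk p n hn hn1]
  have e : gg p i j (Projectivization.mk ℝ n hn) = p i * (∑ k, p k * n k) * n j := by
    unfold gg
    simp only [ContinuousMap.sum_apply, ContinuousMap.smul_apply, zz_mk_unit _ _ _ hn hn1,
      smul_eq_mul]
    simp only [Fin.sum_univ_three]
    ring
  rw [e]
  set A := ∑ k, p k * n k
  have h1 := coord_sq_le hp i
  have h2 := coord_sq_le hn1 j
  have : (p i * A * n j) ^ 2 = (p i ^ 2 * n j ^ 2) * A ^ 2 := by ring
  rw [this]
  have h3 : p i ^ 2 * n j ^ 2 ≤ 1 := by nlinarith [sq_nonneg (p i), sq_nonneg (n j)]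
  nlinarith [sq_nonneg A]

theorem zz_near {ε r : ℝ} (hr : 0 < r) (c : Cov3 ε r) (a : c.ι) (x : P2) (hx : c.χ a x ≠ 0)
    (i k : Fin 3) : |zz i k x - c.p a i * c.p a k| ≤ 2 * r := by
  obtain ⟨v, hv, hv1, rfl⟩ := exists_unit x
  obtain ⟨s, hs, hd⟩ := c.near a v hv hv1 hx
  rw [zz_mk_unit _ _ _ hv hv1]
  set p := c.p a with hp
  have hu : ∑ i, p i ^ 2 = 1 := c.unit a
  have hs2 : s * s = 1 := by rcases hs with h | h <;> rw [h] <;> norm_num
  have hsa : |s| = 1 := by rcases hs with h | h <;> rw [h] <;> simp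
  have hdi : ∀ i, |v i - s * p i| ≤ r := by
    intro i
    refine abs_le_of_sq_le_sq ?_ hr.le
    exact (Finset.single_le_sum (f := fun k => (v k - s * p k) ^ 2)
      (fun k _ => sq_nonneg _) (mem_univ i)).trans hd
  have hvk : |v k| ≤ 1 := abs_le_one_iff_mul_self_le_one.2 (by nlinarith [coord_sq_le hv1 k])
  have hpi : |p i| ≤ 1 := abs_le_one_iff_mul_self_le_one.2 (by nlinarith [coord_sq_le hu i])
  have e : v i * v k - p i * p k = (v i - s * p i) * v k + (s * p i) * (v k - s * p k) := by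
    have : p i * p k = (s * s) * (p i * p k) := by rw [hs2, one_mul]
    rw [this]; ring
  rw [e]
  calc |(v i - s * p i) * v k + (s * p i) * (v k - s * p k)|
      ≤ |(v i - s * p i) * v k| + |(s * p i) * (v k - s * p k)| := abs_add_le _ _
    _ = |v i - s * p i| * |v k| + |s| * |p i| * |v k - s * p k| := by
        rw [abs_mul, abs_mul, abs_mul]
    _ ≤ r * 1 + 1 * 1 * r := by
        rw [hsa]
        gcongr
        · exact hdi i
        · exact hdi k
    _ = 2 * r := by ring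

/-- the error function -/
noncomputable def hh {ε r : ℝ} (c : Cov3 ε r) (i k : Fin 3) : C(P2, ℝ) :=
  letI := c.fin
  ∑ a, (c.χ a) ^ 2 * (zz i k - ContinuousMap.const _ (c.p a i * c.p a k))

theorem hh_le {ε r : ℝ} (hr : 0 < r) (c : Cov3 ε r) (i k : Fin 3) (x : P2) :
    |hh c i k x| ≤ 2 * r := by
  let _ := c.fin
  have e : hh c i k x = ∑ a, (c.χ a x) ^ 2 * (zz i k x - c.p a i * c.p a k) := by
    unfold hh
    simp [ContinuousMap.sum_apply]
  rw [e]
  calc |∑ a, (c.χ a x) ^ 2 * (zz i k x - c.p a i * c.p a k)|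
      ≤ ∑ a, |(c.χ a x) ^ 2 * (zz i k x - c.p a i * c.p a k)| := Finset.abs_sum_le_sum_abs _ _
    _ ≤ ∑ a, (c.χ a x) ^ 2 * (2 * r) := by
        refine Finset.sum_le_sum fun a _ => ?_
        rw [abs_mul, abs_of_nonneg (sq_nonneg (c.χ a x))]
        by_cases h0 : c.χ a x = 0
        · rw [h0]; simp
        · exact mul_le_mul_of_nonneg_left (zz_near hr c a x h0 i k) (sq_nonneg _)
    _ = 2 * r := by rw [← Finset.sum_mul, c.sum x, one_mul]

theorem few_sum {ε r : ℝ} (hr : 0 < r) (c : Cov3 ε r) (i j : Fin 3) (x : P2) :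
    (letI := c.fin; ∑ a, ‖toC (gg (c.p a) i j * psi r (c.p a)) x‖ ^ 2) ≤ 4 * ε := by
  let _ := c.fin
  obtain ⟨n, hn, hn1, rfl⟩ := exists_unit x
  have hf := c.few n hn1
  set x := Projectivization.mk ℝ n hn
  have h1 : ∀ a, ‖toC (gg (c.p a) i j * psi r (c.p a)) x‖ ^ 2
      ≤ if (∑ i, c.p a i * n i) ^ 2 ≤ 16 * r ^ 2 then 4 * r ^ 2 else 0 := by
    intro a
    have e : ‖toC (gg (c.p a) i j * psi r (c.p a)) x‖ ^ 2
        = (gg (c.p a) i j x) ^ 2 * (psi r (c.p a) x) ^ 2 := by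
      rw [toC_apply, Complex.norm_real, Real.norm_eq_abs, sq_abs, ContinuousMap.mul_apply, mul_pow]
    rw [e]
    have h2 := gg_sq_le (c.p a) (c.unit a) i j x
    have h3 := psi_nonneg r (c.p a) x
    have h4 := psi_le_one r (c.p a) x
    have h5 : sq2 (c.p a) x = (∑ i, c.p a i * n i) ^ 2 := sq2_mk _ n hn hn1
    by_cases h6 : 4 * r ^ 2 ≤ sq2 (c.p a) x
    · rw [psi_eq_zero hr h6]
      split_ifs
      · have := sq_nonneg r; simp; positivity
      · simp
    · rw [if_pos (by rw [← h5]; nlinarith [sq_nonneg r])]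
      have h7 : (psi r (c.p a) x) ^ 2 ≤ 1 := by nlinarith
      nlinarith [sq_nonneg (gg (c.p a) i j x)]
  calc _ ≤ ∑ a, (if (∑ i, c.p a i * n i) ^ 2 ≤ 16 * r ^ 2 then 4 * r ^ 2 else (0 : ℝ)) :=
        Finset.sum_le_sum fun a _ => h1 a
    _ = 4 * (((univ.filter fun a => (∑ i, c.p a i * n i) ^ 2 ≤ 16 * r ^ 2).card : ℝ) * r ^ 2) := by
        rw [← Finset.sum_filter, Finset.sum_const, nsmul_eq_mul]; ring
    _ ≤ 4 * ε := by linarith

theorem toC_mul (f g : C(P2, ℝ)) : toC (f * g) = toC f * toC g := by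
  ext x; simp [toC_apply]

theorem toC_add (f g : C(P2, ℝ)) : toC (f + g) = toC f + toC g := by
  ext x; simp [toC_apply]

theorem toC_sub (f g : C(P2, ℝ)) : toC (f - g) = toC f - toC g := by
  ext x; simp [toC_apply]

theorem toC_one : toC (1 : C(P2, ℝ)) = 1 := by
  ext x; simp [toC_apply]

theorem toC_sum {ι : Type*} (s : Finset ι) (f : ι → C(P2, ℝ)) :
    toC (∑ a ∈ s, f a) = ∑ a ∈ s, toC (f a) := by
  ext x; simp [toC_apply, ContinuousMap.sum_apply]

theorem toC_smul (t : ℝ) (f : C(P2, ℝ)) : toC (t • f) = (t : ℂ) • toC f := by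
  ext x; simp [toC_apply]

theorem norm_toC_le {f : C(P2, ℝ)} {b : ℝ} (hb : 0 ≤ b) (h : ∀ x, |f x| ≤ b) : ‖toC f‖ ≤ b := by
  rw [ContinuousMap.norm_le _ hb]
  intro x
  rw [toC_apply, Complex.norm_real]
  exact h x

/-- the estimate of the synthesis lemma -/
theorem syn_est (β lm : C(P2, ℂ) →⋆ₐ[ℂ] (K →L[ℂ] K)) (T : K →L[ℂ] K)
    (h : ∀ u g : C(P2, ℂ), NI (tsupport ⇑u) (tsupport ⇑g) → β u * T * lm g = 0)
    {ε r : ℝ} (hr : 0 < r) (hε : 0 ≤ ε) (c : Cov3 ε r) (i j : Fin 3) (ξ : K) :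
    ‖(∑ k, β (toC (zz i k)) * T * lm (toC (zz k j))) ξ‖ ≤ (2 * √ε + 6 * r) * (‖T‖ * ‖ξ‖) := by
  let _ := c.fin
  set χ : c.ι → C(P2, ℂ) := fun a => toC (c.χ a) with hχ
  set g : c.ι → C(P2, ℂ) := fun a => toC (gg (c.p a) i j) with hg
  set g' : c.ι → C(P2, ℂ) := fun a => toC (gg (c.p a) i j * psi r (c.p a)) with hg'
  have hloc : ∀ a, β (χ a) * T * lm (g a) = β (χ a) * T * lm (g' a) := by
    intro a
    have e : g a = g' a + toC (gg (c.p a) i j * (1 - psi r (c.p a))) := by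
      change toC _ = toC _ + toC _
      rw [← toC_add]
      congr 1
      ring
    rw [e, map_add, mul_add, h _ _ (NI_supp hr c a _), add_zero]
  have hχ1 : ∑ a, χ a * χ a = 1 := by
    have : ∑ a, (c.χ a) * (c.χ a) = (1 : C(P2, ℝ)) := by
      ext x
      simp only [ContinuousMap.sum_apply, ContinuousMap.mul_apply, ContinuousMap.one_apply]
      rw [← c.sum x]
      exact Finset.sum_congr rfl fun a _ => by ring
    have h2 := congrArg toC this
    rw [toC_sum, toC_one] at h2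
    rw [← h2]
    exact Finset.sum_congr rfl fun a _ => (toC_mul _ _).symm
  have hz : ∀ k, toC (zz i k) = ∑ a, ((c.p a i * c.p a k : ℝ) : ℂ) • (χ a * χ a)
      + toC (hh c i k) := by
    intro k
    have e : zz i k = ∑ a, (c.p a i * c.p a k) • (c.χ a * c.χ a) + hh c i k := by
      ext x
      unfold hh
      simp only [ContinuousMap.add_apply, ContinuousMap.sum_apply, ContinuousMap.smul_apply,
        ContinuousMap.mul_apply, ContinuousMap.sub_apply, ContinuousMap.const_apply, smul_eq_mul,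
        ContinuousMap.pow_apply]
      rw [← Finset.sum_add_distrib]
      have : ∀ a, c.p a i * c.p a k * (c.χ a x * c.χ a x) + c.χ a x ^ 2 *
          (zz i k x - c.p a i * c.p a k) = (c.χ a x ^ 2) * zz i k x := by intro a; ring
      simp only [this, ← Finset.sum_mul, c.sum x, one_mul]
    conv_lhs => rw [e]
    rw [toC_add, toC_sum]
    congr 1
    exact Finset.sum_congr rfl fun a _ => by rw [toC_smul, toC_mul]
  have dec : (∑ k, β (toC (zz i k)) * T * lm (toC (zz k j)))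
      = ∑ a, β (χ a) * (β (χ a) * T * lm (g' a)) + ∑ k, β (toC (hh c i k)) * T *
        lm (toC (zz k j)) := by
    have e1 : ∀ k, β (toC (zz i k)) * T * lm (toC (zz k j))
        = ∑ a, ((c.p a i * c.p a k : ℝ) : ℂ) • (β (χ a) * (β (χ a) * T * lm (toC (zz k j))))
          + β (toC (hh c i k)) * T * lm (toC (zz k j)) := by
      intro k
      conv_lhs => rw [hz k]
      rw [map_add, add_mul, add_mul, map_sum, Finset.sum_mul, Finset.sum_mul]
      congr 1
      refine Finset.sum_congr rfl fun a _ => ?_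
      rw [map_smul, map_mul, smul_mul_assoc, smul_mul_assoc]
      simp only [mul_assoc]
    simp only [e1, Finset.sum_add_distrib]
    congr 1
    rw [Finset.sum_comm]
    refine Finset.sum_congr rfl fun a _ => ?_
    rw [← hloc a]
    have e2 : g a = ∑ k, ((c.p a i * c.p a k : ℝ) : ℂ) • toC (zz k j) := by
      simp only [hg, gg]
      rw [toC_sum]
      exact Finset.sum_congr rfl fun k _ => toC_smul _ _
    rw [e2, map_sum, Finset.mul_sum, Finset.mul_sum]
    refine Finset.sum_congr rfl fun k _ => ?_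
    rw [map_smul, mul_smul_comm, mul_smul_comm]
  rw [dec, _root_.add_apply]
  have b1 : ‖(∑ a, β (χ a) * (β (χ a) * T * lm (g' a))) ξ‖ ≤ 2 * √ε * (‖T‖ * ‖ξ‖) := by
    rw [_root_.sum_apply]
    have s1 : ‖∑ a, β (χ a) ((β (χ a) * T * lm (g' a)) ξ)‖ ^ 2
        ≤ 1 * ∑ a, ‖(β (χ a) * T * lm (g' a)) ξ‖ ^ 2 := by
      refine column_le β univ χ zero_le_one (fun x => ?_) _
      have : ∀ a, ‖χ a x‖ ^ 2 = c.χ a x ^ 2 := by
        intro a
        simp only [hχ, toC_apply, Complex.norm_real, Real.norm_eq_abs, sq_abs]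
      simp only [this, c.sum x, le_refl]
    have s2 : ∑ a, ‖(β (χ a) * T * lm (g' a)) ξ‖ ^ 2 ≤ ‖T‖ ^ 2 * (4 * ε * ‖ξ‖ ^ 2) := by
      calc ∑ a, ‖(β (χ a) * T * lm (g' a)) ξ‖ ^ 2
          ≤ ∑ a, ‖T‖ ^ 2 * ‖lm (g' a) ξ‖ ^ 2 := by
            refine Finset.sum_le_sum fun a _ => ?_
            rw [← mul_pow]
            refine pow_le_pow_left₀ (norm_nonneg _) ?_ 2
            have hb : ‖β (χ a)‖ ≤ 1 := by
              refine (NonUnitalStarAlgHom.norm_apply_le β _).trans ?_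
              refine norm_toC_le zero_le_one fun x => ?_
              refine abs_le_one_iff_mul_self_le_one.2 ?_
              have := Finset.single_le_sum (f := fun a => c.χ a x ^ 2)
                (fun a _ => sq_nonneg _) (mem_univ a)
              simp only [c.sum x] at this
              nlinarith
            calc ‖(β (χ a) * T * lm (g' a)) ξ‖ = ‖β (χ a) (T (lm (g' a) ξ))‖ := rfl
              _ ≤ ‖β (χ a)‖ * ‖T (lm (g' a) ξ)‖ := ContinuousLinearMap.le_opNorm _ _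
              _ ≤ 1 * (‖T‖ * ‖lm (g' a) ξ‖) := by
                  gcongr
                  exact ContinuousLinearMap.le_opNorm _ _
              _ = _ := one_mul _
        _ = ‖T‖ ^ 2 * ∑ a, ‖lm (g' a) ξ‖ ^ 2 := by rw [Finset.mul_sum]
        _ ≤ ‖T‖ ^ 2 * (4 * ε * ‖ξ‖ ^ 2) := by
            gcongr
            exact sum_sq_le lm univ g' (by positivity) (fun x => few_sum hr c i j x) ξ
    have s3 : ‖∑ a, β (χ a) ((β (χ a) * T * lm (g' a)) ξ)‖ ^ 2 ≤ (2 * √ε * (‖T‖ * ‖ξ‖)) ^ 2 := by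
      have h5 := Real.sq_sqrt hε
      have h6 : ‖T‖ ^ 2 * (4 * ε * ‖ξ‖ ^ 2) = (2 * √ε * (‖T‖ * ‖ξ‖)) ^ 2 := by
        rw [mul_pow, mul_pow, mul_pow, h5]; ring
      rw [← h6]
      exact s1.trans (by rw [one_mul]; exact s2)
    exact (pow_le_pow_iff_left₀ (norm_nonneg _) (by positivity) two_ne_zero).1 s3
  have b2 : ‖(∑ k, β (toC (hh c i k)) * T * lm (toC (zz k j))) ξ‖ ≤ 6 * r * (‖T‖ * ‖ξ‖) := by
    rw [_root_.sum_apply]
    calc ‖∑ k, (β (toC (hh c i k)) * T * lm (toC (zz k j))) ξ‖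
        ≤ ∑ k, ‖(β (toC (hh c i k)) * T * lm (toC (zz k j))) ξ‖ := norm_sum_le _ _
      _ ≤ ∑ _k : Fin 3, 2 * r * (‖T‖ * ‖ξ‖) := by
          refine Finset.sum_le_sum fun k _ => ?_
          have h1 : ‖β (toC (hh c i k))‖ ≤ 2 * r :=
            (NonUnitalStarAlgHom.norm_apply_le β _).trans
              (norm_toC_le (by positivity) fun x => hh_le hr c i k x)
          have h2 : ‖lm (toC (zz k j))‖ ≤ 1 := by
            refine (NonUnitalStarAlgHom.norm_apply_le lm _).trans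
              (norm_toC_le zero_le_one fun x => ?_)
            obtain ⟨v, hv, hv1, rfl⟩ := exists_unit x
            rw [zz_mk_unit _ _ _ hv hv1, abs_mul]
            have h3 : |v k| ≤ 1 := abs_le_one_iff_mul_self_le_one.2
              (by nlinarith [coord_sq_le hv1 k])
            have h4 : |v j| ≤ 1 := abs_le_one_iff_mul_self_le_one.2
              (by nlinarith [coord_sq_le hv1 j])
            exact mul_le_one₀ h3 (abs_nonneg _) h4
          calc ‖(β (toC (hh c i k)) * T * lm (toC (zz k j))) ξ‖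
              = ‖β (toC (hh c i k)) (T (lm (toC (zz k j)) ξ))‖ := rfl
            _ ≤ ‖β (toC (hh c i k))‖ * ‖T (lm (toC (zz k j)) ξ)‖ :=
                ContinuousLinearMap.le_opNorm _ _
            _ ≤ (2 * r) * (‖T‖ * (‖lm (toC (zz k j))‖ * ‖ξ‖)) := by
                gcongr
                refine (ContinuousLinearMap.le_opNorm _ _).trans ?_
                gcongr
                exact ContinuousLinearMap.le_opNorm _ _
            _ ≤ (2 * r) * (‖T‖ * (1 * ‖ξ‖)) := by gcongr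
            _ = _ := by ring
      _ = 6 * r * (‖T‖ * ‖ξ‖) := by
          rw [Finset.sum_const, Finset.card_univ, Fintype.card_fin, nsmul_eq_mul]
          push_cast; ring
  calc _ ≤ ‖(∑ a, β (χ a) * (β (χ a) * T * lm (g' a))) ξ‖
        + ‖(∑ k, β (toC (hh c i k)) * T * lm (toC (zz k j))) ξ‖ := norm_add_le _ _
    _ ≤ 2 * √ε * (‖T‖ * ‖ξ‖) + 6 * r * (‖T‖ * ‖ξ‖) := add_le_add b1 b2
    _ = _ := by ring

/-- **SYN**, the synthesis lemma with a middle operator. -/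
theorem syn (hP : SynP) (β lm : C(P2, ℂ) →⋆ₐ[ℂ] (K →L[ℂ] K)) (T : K →L[ℂ] K)
    (h : ∀ u g : C(P2, ℂ), NI (tsupport ⇑u) (tsupport ⇑g) → β u * T * lm g = 0) (i j : Fin 3) :
    ∑ k, β (toC (zz i k)) * T * lm (toC (zz k j)) = 0 := by
  ext ξ
  rw [_root_.zero_apply, ← norm_le_zero_iff]
  refine le_of_forall_pos_le_add fun δ hδ => ?_
  have hlim : Filter.Tendsto (fun ε : ℝ => (2 * √ε + 6 * ε) * (‖T‖ * ‖ξ‖)) (𝓝[>] 0) (𝓝 0) := by
    have : Filter.Tendsto (fun ε : ℝ => (2 * √ε + 6 * ε) * (‖T‖ * ‖ξ‖)) (𝓝 0)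
        (𝓝 ((2 * √0 + 6 * 0) * (‖T‖ * ‖ξ‖))) := by
      refine Continuous.tendsto ?_ 0
      fun_prop
    simp only [Real.sqrt_zero, mul_zero, add_zero, zero_mul] at this
    exact this.mono_left nhdsWithin_le_nhds
  have h1 := (hlim.eventually (gt_mem_nhds hδ)).and self_mem_nhdsWithin
  obtain ⟨ε, hε1, hε0⟩ := h1.exists
  have hε0' : 0 < ε := hε0
  obtain ⟨r, hr, hrε, ⟨c⟩⟩ := hP ε hε0'
  have h2 := syn_est β lm T h hr hε0'.le c i j ξ
  rw [zero_add]
  refine h2.trans (le_trans ?_ hε1.le)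
  gcongr

end Vale.Agent.P092.H613
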