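import Vale.Agent.P092.SD.Defs
import Vale.Agent.P092.H613.Syn
import Vale.Agent.P092.H406.Br
import Vale.Agent.P092.H407.SynD

/-!
P092, Team D, k = ℝ: from the quantum plane `SD.QP` to the commutation of all points.
`com_of_supp` = (I2), `lines_comm` = (5), `all_comm` = (6) of #4334.
-/

set_option linter.unusedSectionVars false

namespace Vale.Agent.P092.H613

open Finset TopologicalSpace Topology
open scoped LinearAlgebra.Projectivization
open Vale.Agent.P092.H820 Vale.Agent.P092.H218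

variable {K : Type} [NormedAddCommGroup K] [InnerProductSpace ℂ K] [CompleteSpace K]

/-- the nine operators -/
noncomputable def nn (β : C(P2, ℂ) →⋆ₐ[ℂ] (K →L[ℂ] K)) : M3 (K →L[ℂ] K) :=
  fun i j => β (toC (zz i j))

theorem nn_r1 (β : C(P2, ℂ) →⋆ₐ[ℂ] (K →L[ℂ] K)) : R1 (nn β) := H406.r1 β

theorem inc3_of_supp (β lm : C(P2, ℂ) →⋆ₐ[ℂ] (K →L[ℂ] K)) (h : SD.Supp (k := ℝ) β lm) :
    Inc3 (nn β) (nn lm) := by
  intro i j
  have := syn H407.synP β lm 1 (fun u g hug => by rw [mul_one]; exact h u g hug) i j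
  simp only [mul_one] at this
  exact this

/-- **(I2)** over `ℝ`: incident pairs commute. -/
theorem com_of_supp (β lm : C(P2, ℂ) →⋆ₐ[ℂ] (K →L[ℂ] K)) (h : SD.Supp (k := ℝ) β lm)
    (f g : C(P2, ℂ)) : Commute (β f) (lm g) :=
  H406.comm_of_nine β lm (com_of_inc (nn_r1 β) (nn_r1 lm) (inc3_of_supp β lm h)) f g

/-! ### geometry -/

theorem exists_two (l : P2) : ∃ c c' : P2, c ≠ c' ∧ (c, l) ∈ inc3 (k := ℝ) ∧
    (c', l) ∈ inc3 (k := ℝ) := by
  obtain ⟨n, hn, -, rfl⟩ := exists_unit l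
  have key : ∀ (v w : Fin 3 → ℝ) (i j : Fin 3), v i ≠ 0 → v j = 0 → w j ≠ 0 →
      ∑ k, v k * n k = 0 → ∑ k, w k * n k = 0 →
      ∃ c c' : P2, c ≠ c' ∧ (c, Projectivization.mk ℝ n hn) ∈ inc3 (k := ℝ) ∧
        (c', Projectivization.mk ℝ n hn) ∈ inc3 (k := ℝ) := by
    intro v w i j hvi hvj hwj h1 h2
    have hv : v ≠ 0 := fun h => hvi (by rw [h]; rfl)
    have hw : w ≠ 0 := fun h => hwj (by rw [h]; rfl)
    refine ⟨Projectivization.mk ℝ v hv, Projectivization.mk ℝ w hw, ?_,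
      (inc_iff v n hv hn).2 h1, (inc_iff w n hw hn).2 h2⟩
    intro h
    obtain ⟨a, ha⟩ := (Projectivization.mk_eq_mk_iff' ℝ _ _ hv hw).1 h
    have h3 := congrFun ha j
    have h4 := congrFun ha i
    simp only [Pi.smul_apply, smul_eq_mul] at h3 h4
    rw [hvj] at h3
    rcases mul_eq_zero.1 h3 with h5 | h5
    · rw [h5, zero_mul] at h4
      exact hvi h4.symm
    · exact hwj h5
  by_cases h0 : n 0 = 0
  · by_cases h1 : n 1 = 0
    · have h2 : n 2 ≠ 0 := by
        intro h2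
        apply hn
        funext i
        fin_cases i <;> simp [h0, h1, h2]
      refine key ![n 2, 0, -n 0] ![0, -n 2, n 1] 0 1 (by simpa using h2) (by simp)
        (by simpa using h2) ?_ ?_ <;> simp [Fin.sum_univ_three] <;> ring
    · refine key ![-n 1, n 0, 0] ![0, -n 2, n 1] 0 2 (by simpa using h1) (by simp)
        (by simpa using h1) ?_ ?_ <;> simp [Fin.sum_univ_three] <;> ring
  · refine key ![n 2, 0, -n 0] ![-n 1, n 0, 0] 2 1 (by simpa using h0) (by simp)
      (by simpa using h0) ?_ ?_ <;> simp [Fin.sum_univ_three] <;> ring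

theorem inc3_symm {a l : P2} (h : (a, l) ∈ inc3 (k := ℝ)) : (l, a) ∈ inc3 (k := ℝ) := by
  obtain ⟨v, hv, -, rfl⟩ := exists_unit a
  obtain ⟨n, hn, -, rfl⟩ := exists_unit l
  rw [inc_iff] at h ⊢
  rw [← h]
  exact Finset.sum_congr rfl fun i _ => mul_comm _ _

/-- `zz i j` is Lipschitz on sup-norm-one vectors. -/
theorem zz_lip (i j : Fin 3) (v w : Fin 3 → ℝ) (hv : v ≠ 0) (hw : w ≠ 0) (hv1 : ‖v‖ = 1)
    (hw1 : ‖w‖ = 1) : |zz i j (Projectivization.mk ℝ v hv) - zz i j (Projectivization.mk ℝ w hw)|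
      ≤ 12 * ‖v - w‖ := by
  rw [zz_mk, zz_mk]
  have hvk : ∀ k, |v k| ≤ 1 := fun k => by
    have := norm_le_pi_norm v k
    rwa [hv1, Real.norm_eq_abs] at this
  have hwk : ∀ k, |w k| ≤ 1 := fun k => by
    have := norm_le_pi_norm w k
    rwa [hw1, Real.norm_eq_abs] at this
  have hd : ∀ k, |v k - w k| ≤ ‖v - w‖ := fun k => norm_le_pi_norm (v - w) k
  have big : ∀ u : Fin 3 → ℝ, u ≠ 0 → ‖u‖ = 1 → 1 ≤ ∑ k, u k ^ 2 := by
    intro u hu hu1
    obtain ⟨k, hk⟩ : ∃ k, 1 ≤ |u k| := by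
      by_contra hc
      push Not at hc
      have : ‖u‖ < 1 := (pi_norm_lt_iff one_pos).2 fun k => by
        rw [Real.norm_eq_abs]; exact hc k
      linarith
    have h1 : u k ^ 2 ≤ ∑ k, u k ^ 2 :=
      Finset.single_le_sum (f := fun k => u k ^ 2) (fun k _ => sq_nonneg _) (mem_univ k)
    have h2 : 1 ≤ u k ^ 2 := by rw [← sq_abs]; nlinarith [abs_nonneg (u k)]
    linarith
  have hV := big v hv hv1
  have hW := big w hw hw1
  set V := ∑ k, v k ^ 2 with hVd
  set W := ∑ k, w k ^ 2 with hWd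
  set δ := ‖v - w‖ with hδ
  have hδ0 : 0 ≤ δ := norm_nonneg _
  have hmul : ∀ a b, |v a * v b - w a * w b| ≤ 2 * δ := by
    intro a b
    have e : v a * v b - w a * w b = (v a - w a) * v b + w a * (v b - w b) := by ring
    rw [e]
    calc _ ≤ |(v a - w a) * v b| + |w a * (v b - w b)| := abs_add_le _ _
      _ = |v a - w a| * |v b| + |w a| * |v b - w b| := by rw [abs_mul, abs_mul]
      _ ≤ δ * 1 + 1 * δ := by
          gcongr
          · exact hd a
          · exact hvk b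
          · exact hwk a
          · exact hd b
      _ = 2 * δ := by ring
  have hVW : |W - V| ≤ 6 * δ := by
    have e : W - V = -∑ k, (v k * v k - w k * w k) := by
      rw [hVd, hWd, Finset.sum_sub_distrib]
      simp only [sq]; ring
    rw [e, abs_neg]
    calc |∑ k, (v k * v k - w k * w k)| ≤ ∑ k, |v k * v k - w k * w k| :=
          Finset.abs_sum_le_sum_abs _ _
      _ ≤ ∑ _k : Fin 3, 2 * δ := Finset.sum_le_sum fun k _ => hmul k k
      _ = 6 * δ := by
          rw [Finset.sum_const, Finset.card_univ, Fintype.card_fin, nsmul_eq_mul]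
          push_cast; ring
  have hW3 : W ≤ 3 := by
    calc W ≤ ∑ _k : Fin 3, (1 : ℝ) := Finset.sum_le_sum fun k _ => by
          have := hwk k
          rw [← sq_abs]; nlinarith [abs_nonneg (w k)]
      _ = 3 := by simp
  have e : v i * v j / V - w i * w j / W
      = ((v i * v j - w i * w j) * W + w i * w j * (W - V)) / (V * W) := by
    field_simp
    ring
  rw [e, abs_div, div_le_iff₀ (by rw [abs_of_pos (by positivity)]; positivity)]
  have h1 : |(v i * v j - w i * w j) * W + w i * w j * (W - V)| ≤ 12 * δ := by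
    calc _ ≤ |(v i * v j - w i * w j) * W| + |w i * w j * (W - V)| := abs_add_le _ _
      _ = |v i * v j - w i * w j| * W + |w i| * |w j| * |W - V| := by
          rw [abs_mul, abs_mul, abs_mul, abs_of_pos (by linarith : (0 : ℝ) < W)]
      _ ≤ (2 * δ) * 3 + 1 * 1 * (6 * δ) := by
          gcongr
          · exact hmul i j
          · exact hwk i
          · exact hwk j
      _ = 12 * δ := by ring
  refine h1.trans ?_
  rw [abs_of_pos (by positivity)]
  have : 1 ≤ V * W := by nlinarith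
  nlinarith

theorem lipP_comp (i j : Fin 3) (ψ : C(ℝ, ℝ)) (hψ : ∃ C, LipschitzWith C ψ) :
    SD.LipP (k := ℝ) (toC (ψ.comp (zz i j))) := by
  obtain ⟨C, hC⟩ := hψ
  refine ⟨C * 12, fun v w hv hw hv1 hw1 => ?_⟩
  have h1 := zz_lip i j v w hv hw hv1 hw1
  change ‖((ψ (zz i j (Projectivization.mk ℝ v hv)) : ℝ) : ℂ)
    - ((ψ (zz i j (Projectivization.mk ℝ w hw)) : ℝ) : ℂ)‖ ≤ _
  rw [← Complex.ofReal_sub, Complex.norm_real]
  have h2 := hC.dist_le_mul (zz i j (Projectivization.mk ℝ v hv))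
    (zz i j (Projectivization.mk ℝ w hw))
  rw [Real.dist_eq, Real.dist_eq] at h2
  calc _ ≤ (C : ℝ) * |zz i j (Projectivization.mk ℝ v hv)
        - zz i j (Projectivization.mk ℝ w hw)| := h2
    _ ≤ C * (12 * ‖v - w‖) := by gcongr
    _ = _ := by ring

/-! ### the quantum plane -/

variable {E F : P2 → (C(P2, ℂ) →⋆ₐ[ℂ] (K →L[ℂ] K))}

/-- KEY* for the functions `z_i z_j`. -/
theorem key_star' (h : SD.QP (k := ℝ) E F) {a b l : P2} (hal : (a, l) ∈ inc3 (k := ℝ))
    (hbl : (b, l) ∉ inc3 (k := ℝ)) (u g : C(P2, ℂ)) (hug : NI (tsupport ⇑u) (tsupport ⇑g))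
    (i j : Fin 3) : E a u * E b (toC (zz i j)) * F l g = 0 := by
  refine key_real (E a) (E b) (F l g) u (h.inc a l hal u g hug) (zz i j) ?_
  intro φ ψ _ hψ hg
  have hs : tsupport ⇑(u * toC (φ.comp (zz i j))) ⊆ tsupport ⇑u :=
    closure_mono fun x hx h0 => hx (by rw [ContinuousMap.mul_apply, h0, zero_mul])
  have ha : tsupport ⇑(u * toC (φ.comp (zz i j))) ⊆ tsupport ⇑(toC (φ.comp (zz i j))) :=
    closure_mono fun x hx h0 => hx (by rw [ContinuousMap.mul_apply, h0, mul_zero])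
  exact h.key a b l hal hbl _ _ g (lipP_comp i j ψ hψ) (fun x hx => hug x (hs hx))
    ((disj_of_gap hg (zz i j)).mono_left ha)

/-- **(5)** opposite pairs commute. -/
theorem lines_comm (h : SD.QP (k := ℝ) E F) (b l : P2) (f g : C(P2, ℂ)) :
    Commute (E b f) (F l g) := by
  by_cases hbl : (b, l) ∈ inc3 (k := ℝ)
  · exact h.com b l hbl f g
  · obtain ⟨c, c', hne, hc, hc'⟩ := exists_two l
    refine H406.comm_of_nine (E b) (F l) ?_ f g
    have hk : ∀ c, (c, l) ∈ inc3 (k := ℝ) → ∀ a' b' i j,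
        ∑ k, nn (E c) i k * nn (E b) a' b' * nn (F l) k j = 0 := by
      intro c hc a' b' i j
      exact syn H407.synP (E c) (F l) (E b (toC (zz a' b')))
        (fun u g hug => key_star' h hc hbl u g hug a' b') i j
    exact opp (nn_r1 (E c)) (nn_r1 (E c')) (nn_r1 (F l)) (nn_r1 (E b))
      (inc3_of_supp _ _ (h.inc c l hc)) (inc3_of_supp _ _ (h.inc c' l hc'))
      (hk c hc) (hk c' hc') (H406.noAgree _ _ (h.agrE c c' hne))

/-- **(6)** all points commute. -/
theorem all_comm (h : SD.QP (k := ℝ) E F) (a b : P2) (f g : C(P2, ℂ)) :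
    Commute (E a f) (E b g) := by
  obtain ⟨m, m', hne, hm, hm'⟩ := exists_two a
  have hm1 := inc3_symm hm
  have hm2 := inc3_symm hm'
  have key : ∀ i j, E b g * nn (E a) i j = nn (E a) i j * E b g := by
    intro i j
    exact all (nn_r1 (E a)) (nn_r1 (F m)) (nn_r1 (F m'))
      (inc3_of_supp _ _ (h.inc a m hm1)) (inc3_of_supp _ _ (h.inc a m' hm2))
      (H406.noAgree _ _ (h.agrF m m' hne)) (E b g)
      (fun k l => lines_comm h b m g _) (fun k l => lines_comm h b m' g _) i j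
  exact (H406.comm_all (E a) (E b g) key f).symm

end Vale.Agent.P092.H613
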