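import Vale.Agent.P092.SD.Blocks
import Vale.Agent.P092.H613.QPR

/-!
P092, Team D, k = ℝ: the literals `SD.I2Stmt ℝ` and `SD.AllStmt ℝ` of SD/Blocks.lean.
-/

set_option linter.unusedSectionVars false

namespace Vale.Agent.P092.H613

open Finset TopologicalSpace Topology
open scoped LinearAlgebra.Projectivization
open Vale.Agent.P092.H820 Vale.Agent.P092.H218

variable {K : Type} [NormedAddCommGroup K] [InnerProductSpace ℂ K] [CompleteSpace K]
variable {E F : P2 → (C(P2, ℂ) →⋆ₐ[ℂ] (K →L[ℂ] K))}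

/-- **(6)**, dual: all lines commute. -/
theorem all_lines (h : SD.QP (k := ℝ) E F) (l l' : P2) (f g : C(P2, ℂ)) :
    Commute (F l f) (F l' g) := by
  obtain ⟨a, a', hne, ha, ha'⟩ := exists_two l
  have hs : ∀ a, (a, l) ∈ inc3 (k := ℝ) → Inc3 (nn (F l)) (nn (E a)) := fun a ha =>
    (inc3_of_supp _ _ (h.inc a l ha)).symm (nn_r1 (E a)) (nn_r1 (F l))
  have key : ∀ i j, F l' g * nn (F l) i j = nn (F l) i j * F l' g := by
    intro i j
    exact all (nn_r1 (F l)) (nn_r1 (E a)) (nn_r1 (E a')) (hs a ha) (hs a' ha')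
      (H406.noAgree _ _ (h.agrE a a' hne)) (F l' g)
      (fun k m => (lines_comm h a l' _ g).symm) (fun k m => (lines_comm h a' l' _ g).symm) i j
  exact (H406.comm_all (F l) (F l' g) key f).symm

/-- **[D-I2]** -/
theorem i2Stmt : SD.I2Stmt ℝ := fun β lm h f g => com_of_supp β lm h f g

/-- **[D-OPP] + [D-ALL]** -/
theorem allStmt : SD.AllStmt ℝ := fun _ _ h => ⟨all_comm h, lines_comm h, all_lines h⟩

end Vale.Agent.P092.H613
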