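import Mathlib

/-!
P092, one simple factor, real case: the algebraic half of opposite pairs commute.
`D l r i j T = Σ ε_{iab} ε_{jcd} l_{ac} T r_{bd}`, `Psi l r T = Σ l_{ab} T r_{ab}`.
-/

namespace Vale.Agent.P092.H613

open Finset

/-- Levi-Civita symbol. -/
def eps (i j k : Fin 3) : ℤ :=
  ![![![0, 0, 0], ![0, 0, 1], ![0, -1, 0]],
    ![![0, 0, -1], ![0, 0, 0], ![1, 0, 0]],
    ![![0, 1, 0], ![-1, 0, 0], ![0, 0, 0]]] i j k

section ring

variable {𝔸 : Type*} [Ring 𝔸]

/-- 3 × 3 matrices of elements of `𝔸`. -/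
abbrev M3 (𝔸 : Type*) := Fin 3 → Fin 3 → 𝔸

def Psi (l r : M3 𝔸) (T : 𝔸) : 𝔸 := ∑ a, ∑ b, l a b * T * r a b

def D (l r : M3 𝔸) (i j : Fin 3) (T : 𝔸) : 𝔸 :=
  ∑ a, ∑ b, ∑ c, ∑ d, (eps i a b * eps j c d) • (l a c * T * r b d)

theorem schouten {X : Type*} [AddCommGroup X] (F : Fin 3 → Fin 3 → Fin 3 → X) (i k : Fin 3) :
    ∑ a, ∑ b, eps i a b • F k a b
      = ∑ a, ∑ b, eps k a b • F i a b + ∑ b, eps i k b • ∑ a, F a a b
        + ∑ a, eps i a k • ∑ b, F b a b := by
  fin_cases i <;> fin_cases k <;>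
    simp [Fin.sum_univ_three, eps] <;> abel

theorem eps_mul (a b c d : Fin 3) :
    ∑ k, eps k a b * eps k c d
      = (if a = c then 1 else 0) * (if b = d then 1 else 0)
        - (if a = d then 1 else 0) * (if b = c then 1 else 0) := by
  revert a b c d
  decide

theorem sum_D {l r : M3 𝔸} (hl : ∑ a, l a a = 1) (hr : ∑ a, r a a = 1)
    (hrs : ∀ a b, r a b = r b a) (T : 𝔸) : ∑ k, D l r k k T = T - Psi l r T := by
  have h1 : ∑ k, D l r k k T
      = ∑ a, ∑ b, ∑ c, ∑ d, (∑ k, eps k a b * eps k c d) • (l a c * T * r b d) := by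
    unfold D
    simp only [Finset.sum_smul]
    rw [Finset.sum_comm]
    refine Finset.sum_congr rfl fun a _ => ?_
    rw [Finset.sum_comm]
    refine Finset.sum_congr rfl fun b _ => ?_
    rw [Finset.sum_comm]
    refine Finset.sum_congr rfl fun c _ => ?_
    rw [Finset.sum_comm]
  rw [h1]
  simp only [eps_mul, sub_smul, Finset.sum_sub_distrib]
  have h2 : ∑ a, ∑ b, ∑ c, ∑ d, (((if a = c then (1 : ℤ) else 0) * (if b = d then 1 else 0)) •
      (l a c * T * r b d)) = T := by
    have : ∀ a b : Fin 3, ∑ c, ∑ d, (((if a = c then (1 : ℤ) else 0) *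
        (if b = d then 1 else 0)) • (l a c * T * r b d)) = l a a * T * r b b := by
      intro a b
      rw [Finset.sum_eq_single a, Finset.sum_eq_single b]
      · simp
      · intro d _ hd; simp [hd.symm]
      · simp
      · intro c _ hc
        refine Finset.sum_eq_zero fun d _ => ?_
        simp [hc.symm]
      · simp
    simp only [this]
    simp only [← Finset.mul_sum]
    rw [hr, ← Finset.sum_mul, ← Finset.sum_mul, hl]
    simp
  have h3 : ∑ a, ∑ b, ∑ c, ∑ d, (((if a = d then (1 : ℤ) else 0) * (if b = c then 1 else 0)) •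
      (l a c * T * r b d)) = Psi l r T := by
    have : ∀ a b : Fin 3, ∑ c, ∑ d, (((if a = d then (1 : ℤ) else 0) *
        (if b = c then 1 else 0)) • (l a c * T * r b d)) = l a b * T * r b a := by
      intro a b
      rw [Finset.sum_eq_single b, Finset.sum_eq_single a]
      · simp
      · intro d _ hd; simp [hd.symm]
      · simp
      · intro c _ hc
        refine Finset.sum_eq_zero fun d _ => ?_
        simp [hc.symm]
      · simp
    simp only [this]
    unfold Psi
    refine Finset.sum_congr rfl fun a _ => Finset.sum_congr rfl fun b _ => ?_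
    rw [hrs b a]
  rw [h2, h3]

/-- `l Y = 0`, `Y r = 0` in the first and in the second index of the middle family. -/
structure Inc (l Y r : M3 𝔸) : Prop where
  l1 : ∀ a j, ∑ k, l a k * Y k j = 0
  r1 : ∀ b j, ∑ k, Y k j * r k b = 0
  l2 : ∀ a i, ∑ k, l a k * Y i k = 0
  r2 : ∀ b i, ∑ k, Y i k * r k b = 0

theorem D_swap1 {l Y r : M3 𝔸} (hls : ∀ a b, l a b = l b a) (h : Inc l Y r) (i k j m : Fin 3) :
    D l r i j (Y k m) = D l r k j (Y i m) := by
  have key : ∀ c d : Fin 3, ∑ a, ∑ b, eps i a b • (l a c * Y k m * r b d)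
      = ∑ a, ∑ b, eps k a b • (l a c * Y i m * r b d) := by
    intro c d
    have := schouten (fun p a b => l a c * Y p m * r b d) i k
    rw [this]
    have e1 : ∀ b, ∑ a, l a c * Y a m * r b d = 0 := by
      intro b
      rw [← Finset.sum_mul]
      have : ∑ a, l a c * Y a m = 0 := by
        rw [← h.l1 c m]
        exact Finset.sum_congr rfl fun a _ => by rw [hls a c]
      rw [this, zero_mul]
    have e2 : ∀ a, ∑ b, l a c * Y b m * r b d = 0 := by
      intro a
      have : ∑ b, l a c * Y b m * r b d = l a c * ∑ b, Y b m * r b d := by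
        rw [Finset.mul_sum]
        exact Finset.sum_congr rfl fun b _ => by rw [mul_assoc]
      rw [this, h.r1, mul_zero]
    simp [e1, e2]
  have sw : ∀ (i : Fin 3) (Z : 𝔸), D l r i j Z
      = ∑ c, ∑ d, eps j c d • ∑ a, ∑ b, eps i a b • (l a c * Z * r b d) := by
    intro i Z
    unfold D
    simp only [Finset.smul_sum, smul_smul]
    calc _ = ∑ a, ∑ c, ∑ b, ∑ d, (eps i a b * eps j c d) • (l a c * Z * r b d) :=
          Finset.sum_congr rfl fun a _ => Finset.sum_comm
      _ = ∑ c, ∑ a, ∑ b, ∑ d, (eps i a b * eps j c d) • (l a c * Z * r b d) := Finset.sum_comm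
      _ = ∑ c, ∑ a, ∑ d, ∑ b, (eps i a b * eps j c d) • (l a c * Z * r b d) :=
          Finset.sum_congr rfl fun c _ => Finset.sum_congr rfl fun a _ => Finset.sum_comm
      _ = ∑ c, ∑ d, ∑ a, ∑ b, (eps i a b * eps j c d) • (l a c * Z * r b d) :=
          Finset.sum_congr rfl fun c _ => Finset.sum_comm
      _ = _ := by
          refine Finset.sum_congr rfl fun c _ => Finset.sum_congr rfl fun d _ =>
            Finset.sum_congr rfl fun a _ => Finset.sum_congr rfl fun b _ => ?_
          rw [mul_comm]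
  rw [sw, sw]
  exact Finset.sum_congr rfl fun c _ => Finset.sum_congr rfl fun d _ => by rw [key]

theorem D_swap2 {l Y r : M3 𝔸} (hrs : ∀ a b, r a b = r b a) (h : Inc l Y r) (i k j m : Fin 3) :
    D l r i j (Y k m) = D l r i m (Y k j) := by
  have key : ∀ a b : Fin 3, ∑ c, ∑ d, eps j c d • (l a c * Y k m * r b d)
      = ∑ c, ∑ d, eps m c d • (l a c * Y k j * r b d) := by
    intro a b
    have := schouten (fun p c d => l a c * Y k p * r b d) j m
    rw [this]
    have e1 : ∀ d, ∑ c, l a c * Y k c * r b d = 0 := by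
      intro d
      rw [← Finset.sum_mul, h.l2, zero_mul]
    have e2 : ∀ c, ∑ d, l a c * Y k d * r b d = 0 := by
      intro c
      have : ∑ d, l a c * Y k d * r b d = l a c * ∑ d, Y k d * r d b := by
        rw [Finset.mul_sum]
        exact Finset.sum_congr rfl fun d _ => by rw [mul_assoc, hrs b d]
      rw [this, h.r2, mul_zero]
    simp [e1, e2]
  unfold D
  refine Finset.sum_congr rfl fun a _ => Finset.sum_congr rfl fun b _ => ?_
  have := congrArg (fun z => eps i a b • z) (key a b)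
  simpa only [Finset.smul_sum, smul_smul] using this

theorem D_sum (l r : M3 𝔸) (i j : Fin 3) {ι : Type*} (s : Finset ι) (T : ι → 𝔸) :
    D l r i j (∑ k ∈ s, T k) = ∑ k ∈ s, D l r i j (T k) := by
  unfold D
  simp only [Finset.mul_sum, Finset.sum_mul, Finset.smul_sum]
  calc _ = ∑ a, ∑ b, ∑ c, ∑ k ∈ s, ∑ d, (eps i a b * eps j c d) • (l a c * T k * r b d) :=
        Finset.sum_congr rfl fun a _ => Finset.sum_congr rfl fun b _ =>
          Finset.sum_congr rfl fun c _ => Finset.sum_comm
    _ = ∑ a, ∑ b, ∑ k ∈ s, ∑ c, ∑ d, (eps i a b * eps j c d) • (l a c * T k * r b d) :=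
        Finset.sum_congr rfl fun a _ => Finset.sum_congr rfl fun b _ => Finset.sum_comm
    _ = ∑ a, ∑ k ∈ s, ∑ b, ∑ c, ∑ d, (eps i a b * eps j c d) • (l a c * T k * r b d) :=
        Finset.sum_congr rfl fun a _ => Finset.sum_comm
    _ = _ := Finset.sum_comm

/-- **Lemma L.** If the middle family is incident to `l` and `r`, then
`Y_{ij} - Ψ(Y_{ij}) = D_{ij}(∑ Y_{kk})`. -/
theorem lemmaL {l Y r : M3 𝔸} (hls : ∀ a b, l a b = l b a) (hrs : ∀ a b, r a b = r b a)
    (hl : ∑ a, l a a = 1) (hr : ∑ a, r a a = 1) (h : Inc l Y r) (i j : Fin 3) :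
    Y i j - Psi l r (Y i j) = D l r i j (∑ k, Y k k) := by
  rw [D_sum, ← sum_D hl hr hrs]
  refine Finset.sum_congr rfl fun k _ => ?_
  rw [D_swap1 hls h i k j k, D_swap2 hrs h k i j k]

end ring

end Vale.Agent.P092.H613
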