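import Vale.Agent.P092.H613.Alg

/-!
P092, one simple factor, real case: incident pairs commute, opposite pairs commute, all points
commute, as algebra of the nine operators `e_{jk} = β(z_j z_k)` and `n_{jk} = λ(n_j n_k)`.
-/

namespace Vale.Agent.P092.H613

open Finset Topology

set_option linter.unusedSectionVars false
set_option linter.unusedSimpArgs false

variable {K : Type*} [NormedAddCommGroup K] [InnerProductSpace ℂ K] [CompleteSpace K]

/-- The nine operators `β(z_j z_k)` of a spectral family of points of the projective plane. -/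
structure R1 (e : M3 (K →L[ℂ] K)) : Prop where
  sa : ∀ i j, star (e i j) = e i j
  sym : ∀ i j, e i j = e j i
  cm : ∀ i j k l, e i j * e k l = e k l * e i j
  tr : ∑ i, e i i = 1
  minor : ∀ i j k l, e i j * e k l = e i k * e j l

/-- entrywise commutation -/
def Com3 (e n : M3 (K →L[ℂ] K)) : Prop := ∀ i j k l, e i j * n k l = n k l * e i j

/-- incidence -/
def Inc3 (e n : M3 (K →L[ℂ] K)) : Prop := ∀ i j, ∑ k, e i k * n k j = 0

theorem R1.sq {e : M3 (K →L[ℂ] K)} (h : R1 e) : ∑ i, ∑ j, e i j * e i j = 1 := by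
  have : ∀ i j, e i j * e i j = e i i * e j j := fun i j => h.minor i j i j
  simp only [this, ← Finset.mul_sum, ← Finset.sum_mul, h.tr, mul_one]

theorem sum_star_mul_eq_zero {ι : Type*} (s : Finset ι) (c : ι → (K →L[ℂ] K))
    (h : ∑ i ∈ s, star (c i) * c i = 0) : ∀ i ∈ s, c i = 0 := by
  intro i hi
  ext ξ
  have h1 : ∑ i ∈ s, ‖c i ξ‖ ^ 2 = 0 := by
    have h2 : inner ℂ ((∑ i ∈ s, star (c i) * c i) ξ) ξ = (0 : ℂ) := by rw [h]; simp
    rw [_root_.sum_apply, sum_inner] at h2
    have h3 : ∀ i ∈ s, inner ℂ ((star (c i) * c i) ξ) ξ = ((‖c i ξ‖ ^ 2 : ℝ) : ℂ) := by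
      intro i _
      have h0 : (star (c i) * c i) ξ = (star (c i)) (c i ξ) := rfl
      rw [h0, ContinuousLinearMap.star_eq_adjoint,
        ContinuousLinearMap.adjoint_inner_left, inner_self_eq_norm_sq_to_K]
      norm_cast
    rw [Finset.sum_congr rfl h3] at h2
    exact_mod_cast h2
  have h2 := (Finset.sum_eq_zero_iff_of_nonneg (fun i _ => by positivity)).1 h1 i hi
  simpa using h2

theorem Psi_mul_comm {e : M3 (K →L[ℂ] K)} {N : K →L[ℂ] K} (h : ∀ i j, e i j * N = N * e i j)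
    (T : K →L[ℂ] K) : Psi e e (N * T) = N * Psi e e T := by
  unfold Psi
  simp only [Finset.mul_sum]
  refine Finset.sum_congr rfl fun a _ => Finset.sum_congr rfl fun b _ => ?_
  rw [← mul_assoc, h a b]
  simp only [mul_assoc]

theorem Psi_one {e : M3 (K →L[ℂ] K)} (h : R1 e) : Psi e e 1 = 1 := by
  unfold Psi
  simpa using h.sq

/-- Fixed points of `Ψ` whose squares sum to a fixed point commute with `e`. -/
theorem comm_of_fix {e : M3 (K →L[ℂ] K)} (he : R1 e) {ι : Type*} (s : Finset ι)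
    (N : ι → (K →L[ℂ] K)) (hsa : ∀ i ∈ s, star (N i) = N i)
    (hfix : ∀ i ∈ s, Psi e e (N i) = N i)
    (hsum : Psi e e (∑ i ∈ s, N i * N i) = ∑ i ∈ s, N i * N i) :
    ∀ i ∈ s, ∀ k l, e k l * N i = N i * e k l := by
  have key : ∀ i ∈ s, ∑ k, ∑ l, star (e k l * N i - N i * e k l) * (e k l * N i - N i * e k l)
      = Psi e e (N i * N i) - N i * N i := by
    intro i hi
    have h1 : ∀ k l, star (e k l * N i - N i * e k l) * (e k l * N i - N i * e k l)
        = N i * (e k l * e k l) * N i - N i * (e k l * N i * e k l)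
          - (e k l * N i * e k l) * N i + e k l * (N i * N i) * e k l := by
      intro k l
      rw [star_sub, star_mul, star_mul, he.sa, hsa i hi]
      noncomm_ring
    simp only [h1, Finset.sum_add_distrib, Finset.sum_sub_distrib]
    simp only [← Finset.mul_sum, ← Finset.sum_mul]
    have h2 : ∑ k, ∑ l, e k l * N i * e k l = N i := hfix i hi
    rw [he.sq]
    simp only [Finset.mul_sum, Finset.sum_mul] at *
    simp only [← Finset.mul_sum, ← Finset.sum_mul] at *
    rw [h2]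
    unfold Psi
    noncomm_ring
  have tot : ∑ i ∈ s, ∑ k, ∑ l,
      star (e k l * N i - N i * e k l) * (e k l * N i - N i * e k l) = 0 := by
    rw [Finset.sum_congr rfl key, Finset.sum_sub_distrib]
    have : ∑ i ∈ s, Psi e e (N i * N i) = Psi e e (∑ i ∈ s, N i * N i) := by
      unfold Psi
      simp only [Finset.mul_sum, Finset.sum_mul]
      rw [Finset.sum_comm]
      refine Finset.sum_congr rfl fun a _ => ?_
      rw [Finset.sum_comm]
    rw [this, hsum, sub_self]
  have tot' : ∑ p ∈ s ×ˢ (univ ×ˢ univ : Finset (Fin 3 × Fin 3)),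
      star (e p.2.1 p.2.2 * N p.1 - N p.1 * e p.2.1 p.2.2)
        * (e p.2.1 p.2.2 * N p.1 - N p.1 * e p.2.1 p.2.2) = 0 := by
    rw [Finset.sum_product]
    rw [← tot]
    refine Finset.sum_congr rfl fun i _ => ?_
    rw [Finset.sum_product]
  intro i hi k l
  have := sum_star_mul_eq_zero _ _ tot' (i, (k, l)) (by simp [hi])
  exact sub_eq_zero.1 this

theorem eps_antisymm (i a b : Fin 3) : eps i a b = - eps i b a := by
  revert i a b; decide

theorem D_one_eq_zero {e : M3 (K →L[ℂ] K)} (he : R1 e) (i j : Fin 3) : D e e i j 1 = 0 := by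
  have hsym : ∀ a b c d, e a c * e b d = e b c * e a d := by
    intro a b c d
    rw [he.minor a c b d, he.minor b c a d, he.sym a b]
  have h1 : D e e i j 1 = - D e e i j 1 := by
    unfold D
    simp only [mul_one]
    conv_lhs => rw [Finset.sum_comm]
    rw [← Finset.sum_neg_distrib]
    refine Finset.sum_congr rfl fun a _ => ?_
    rw [← Finset.sum_neg_distrib]
    refine Finset.sum_congr rfl fun b _ => ?_
    rw [← Finset.sum_neg_distrib]
    refine Finset.sum_congr rfl fun c _ => ?_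
    rw [← Finset.sum_neg_distrib]
    refine Finset.sum_congr rfl fun d _ => ?_
    rw [eps_antisymm i b a, hsym b a c d]
    simp
  have h2 : (2 : ℂ) • D e e i j 1 = 0 := by
    rw [two_smul]
    nth_rewrite 1 [h1]
    simp
  simpa using h2

/-- `e n = 0` gives `n e = 0`. -/
theorem Inc3.symm {e n : M3 (K →L[ℂ] K)} (he : R1 e) (hn : R1 n) (h : Inc3 e n) : Inc3 n e := by
  intro i j
  have := congrArg star (h j i)
  rw [star_sum, star_zero] at this
  rw [← this]
  refine Finset.sum_congr rfl fun k _ => ?_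
  rw [star_mul, he.sa, hn.sa, hn.sym i k, he.sym k j]

/-- **(I2)** incidence implies commutation. -/
theorem com_of_inc {e n : M3 (K →L[ℂ] K)} (he : R1 e) (hn : R1 n) (h : Inc3 e n) : Com3 e n := by
  have h' := h.symm he hn
  have hI : Inc e n e := by
    refine ⟨h, fun b j => ?_, fun a i => ?_, fun b i => h' i b⟩
    · rw [← h' j b]
      exact Finset.sum_congr rfl fun k _ => by rw [hn.sym k j]
    · rw [← h a i]
      exact Finset.sum_congr rfl fun k _ => by rw [hn.sym i k]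
  have hfix : ∀ i j, Psi e e (n i j) = n i j := by
    intro i j
    have := lemmaL he.sym he.sym he.tr he.tr hI i j
    rw [hn.tr, D_one_eq_zero he, sub_eq_zero] at this
    exact this.symm
  have := comm_of_fix he (univ ×ˢ univ : Finset (Fin 3 × Fin 3)) (fun p => n p.1 p.2)
    (fun p _ => hn.sa _ _) (fun p _ => hfix _ _) (by
      rw [Finset.sum_product]
      rw [hn.sq, Psi_one he])
  intro i j k l
  exact this (k, l) (by simp) i j

/-! ### Words and the mean ergodic step -/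

/-- words in the nine operators -/
def word (e : M3 (K →L[ℂ] K)) (w : List (Fin 3 × Fin 3)) : K →L[ℂ] K :=
  (w.map fun p => e p.1 p.2).prod

@[simp] theorem word_nil (e : M3 (K →L[ℂ] K)) : word e [] = 1 := rfl

theorem word_append_singleton (e : M3 (K →L[ℂ] K)) (w : List (Fin 3 × Fin 3))
    (p : Fin 3 × Fin 3) : word e (w ++ [p]) = word e w * e p.1 p.2 := by
  simp [word]

theorem norm_Psi_le {e : M3 (K →L[ℂ] K)} (he : R1 e) (Y : K →L[ℂ] K) :
    ‖Psi e e Y‖ ≤ ‖Y‖ := by
  refine ContinuousLinearMap.opNorm_le_bound _ (norm_nonneg _) fun ξ => ?_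
  have hsq : ∀ ξ : K, ∑ p : Fin 3 × Fin 3, ‖e p.1 p.2 ξ‖ ^ 2 = ‖ξ‖ ^ 2 := by
    intro ξ
    have h1 : inner ℂ ((∑ i, ∑ j, e i j * e i j) ξ) ξ = ((‖ξ‖ ^ 2 : ℝ) : ℂ) := by
      rw [he.sq]
      simp only [ContinuousLinearMap.one_apply]
      rw [inner_self_eq_norm_sq_to_K]; norm_cast
    have h2 : inner ℂ ((∑ i, ∑ j, e i j * e i j) ξ) ξ
        = ((∑ p : Fin 3 × Fin 3, ‖e p.1 p.2 ξ‖ ^ 2 : ℝ) : ℂ) := by
      rw [Fintype.sum_prod_type]
      simp only [_root_.sum_apply, sum_inner, Complex.ofReal_sum]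
      refine Finset.sum_congr rfl fun i _ => Finset.sum_congr rfl fun j _ => ?_
      have h0 : (e i j * e i j) ξ = (star (e i j)) (e i j ξ) := by rw [he.sa]; rfl
      rw [h0, ContinuousLinearMap.star_eq_adjoint,
        ContinuousLinearMap.adjoint_inner_left, inner_self_eq_norm_sq_to_K]
      norm_cast
    rw [h1] at h2
    exact_mod_cast h2.symm
  set η := Psi e e Y ξ with hη
  have h3 : ‖η‖ ^ 2 ≤ ‖Y‖ * ‖ξ‖ * ‖η‖ := by
    have h4 : ‖η‖ ^ 2 = ‖inner ℂ (Psi e e Y ξ) η‖ := by
      rw [← hη, inner_self_eq_norm_sq_to_K]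
      simp
    rw [h4]
    have h5 : inner ℂ (Psi e e Y ξ) η
        = ∑ p : Fin 3 × Fin 3, inner ℂ (Y (e p.1 p.2 ξ)) (e p.1 p.2 η) := by
      unfold Psi
      rw [Fintype.sum_prod_type]
      simp only [_root_.sum_apply, sum_inner]
      refine Finset.sum_congr rfl fun i _ => Finset.sum_congr rfl fun j _ => ?_
      have : (e i j * Y * e i j) ξ = (star (e i j)) (Y (e i j ξ)) := by
        rw [he.sa]; rfl
      rw [this, ContinuousLinearMap.star_eq_adjoint, ContinuousLinearMap.adjoint_inner_left]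
    rw [h5]
    calc ‖∑ p : Fin 3 × Fin 3, inner ℂ (Y (e p.1 p.2 ξ)) (e p.1 p.2 η)‖
        ≤ ∑ p : Fin 3 × Fin 3, ‖inner ℂ (Y (e p.1 p.2 ξ)) (e p.1 p.2 η)‖ := norm_sum_le _ _
      _ ≤ ∑ p : Fin 3 × Fin 3, ‖Y‖ * (‖e p.1 p.2 ξ‖ * ‖e p.1 p.2 η‖) := by
          refine Finset.sum_le_sum fun p _ => ?_
          calc _ ≤ ‖Y (e p.1 p.2 ξ)‖ * ‖e p.1 p.2 η‖ := norm_inner_le_norm _ _
            _ ≤ (‖Y‖ * ‖e p.1 p.2 ξ‖) * ‖e p.1 p.2 η‖ := by
                gcongr; exact Y.le_opNorm _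
            _ = _ := by ring
      _ = ‖Y‖ * ∑ p : Fin 3 × Fin 3, ‖e p.1 p.2 ξ‖ * ‖e p.1 p.2 η‖ := by
          rw [Finset.mul_sum]
      _ ≤ ‖Y‖ * (‖ξ‖ * ‖η‖) := by
          gcongr
          have := Real.sum_mul_le_sqrt_mul_sqrt (univ : Finset (Fin 3 × Fin 3))
            (fun p => ‖e p.1 p.2 ξ‖) (fun p => ‖e p.1 p.2 η‖)
          simpa [hsq, Real.sqrt_sq (norm_nonneg _)] using this
      _ = _ := by ring
  rcases eq_or_lt_of_le (norm_nonneg η) with h0 | h0
  · rw [← h0]; positivity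
  · nlinarith

/-- `Ψ` as a bounded operator. -/
noncomputable def PsiL (e : M3 (K →L[ℂ] K)) : (K →L[ℂ] K) →L[ℂ] (K →L[ℂ] K) :=
  ∑ a, ∑ b, (ContinuousLinearMap.mul ℂ (K →L[ℂ] K) (e a b)).comp
    ((ContinuousLinearMap.mul ℂ (K →L[ℂ] K)).flip (e a b))

theorem PsiL_apply (e : M3 (K →L[ℂ] K)) (Y : K →L[ℂ] K) : PsiL e Y = Psi e e Y := by
  unfold PsiL Psi
  simp [_root_.sum_apply, mul_assoc]

theorem norm_PsiL_le {e : M3 (K →L[ℂ] K)} (he : R1 e) : ‖PsiL e‖ ≤ 1 := by
  refine ContinuousLinearMap.opNorm_le_bound _ zero_le_one fun Y => ?_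
  rw [PsiL_apply, one_mul]
  exact norm_Psi_le he Y

/-- mean ergodic step: on a `P`-invariant subspace, `(1-P)^r` cannot be killed by a bounded
operator which does not kill `1-P`. -/
theorem ergodic_step {V W : Type*} [NormedAddCommGroup V] [NormedSpace ℂ V]
    [NormedAddCommGroup W] [NormedSpace ℂ W] (P : V →L[ℂ] V) (hP : ‖P‖ ≤ 1)
    (S : Submodule ℂ V) (hS : ∀ x ∈ S, P x ∈ S) (L : V →L[ℂ] W) (r : ℕ)
    (h : ∀ x ∈ S, L (((1 - P) ^ (r + 1)) x) = 0) : ∀ x ∈ S, L ((1 - P) x) = 0 := by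
  induction r with
  | zero => simpa using h
  | succ r ih =>
    apply ih
    intro x hx
    have hpow : ∀ j, ∀ x ∈ S, (P ^ j) x ∈ S := by
      intro j
      induction j with
      | zero => intro x hx; simpa using hx
      | succ j ihj =>
        intro x hx
        rw [pow_succ]
        exact ihj _ (hS x hx)
    have hPn : ∀ j, ‖P ^ j‖ ≤ 1 := by
      intro j
      induction j with
      | zero => rw [pow_zero]; exact ContinuousLinearMap.norm_id_le
      | succ j ihj =>
        rw [pow_succ]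
        calc ‖P ^ j * P‖ ≤ ‖P ^ j‖ * ‖P‖ := norm_mul_le _ _
          _ ≤ 1 * 1 := by gcongr
          _ = 1 := by ring
    set B : ℕ → (V →L[ℂ] V) := fun n =>
      ((n : ℂ)⁻¹) • ∑ k ∈ Finset.range n, ∑ j ∈ Finset.range k, P ^ j with hB
    have hBS : ∀ n, B n x ∈ S := by
      intro n
      simp only [hB, ContinuousLinearMap.smul_apply, _root_.sum_apply]
      exact S.smul_mem _ (S.sum_mem fun k _ => S.sum_mem fun j _ => hpow j x hx)
    have hid : ∀ n : ℕ, n ≠ 0 → (1 - P) ^ (r + 1) - (1 - P) ^ (r + 1 + 1) * B n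
        = (1 - P) ^ r * ((n : ℂ)⁻¹ • (1 - P ^ n)) := by
      intro n hn
      have h1 : ∀ k, (1 - P) * ∑ j ∈ Finset.range k, P ^ j = 1 - P ^ k :=
        fun k => mul_neg_geom_sum P k
      have h2 : (1 - P) * B n = 1 - (n : ℂ)⁻¹ • ∑ k ∈ Finset.range n, P ^ k := by
        simp only [hB]
        rw [mul_smul_comm, Finset.mul_sum]
        simp only [h1, Finset.sum_sub_distrib]
        rw [smul_sub]
        congr 1
        simp only [Finset.sum_const, Finset.card_range]
        rw [← Nat.cast_smul_eq_nsmul ℂ, smul_smul, inv_mul_cancel₀ (by exact_mod_cast hn), one_smul]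
      have h3 : (1 - P) * ((1 - P) * B n) = (1 - P) - (n : ℂ)⁻¹ • (1 - P ^ n) := by
        rw [h2, mul_sub, mul_one, mul_smul_comm, h1]
      have h4 : (1 - P) ^ (r + 1 + 1) * B n = (1 - P) ^ r * ((1 - P) * ((1 - P) * B n)) := by
        rw [pow_succ, pow_succ]; simp only [mul_assoc]
      rw [h4, h3, mul_sub, pow_succ]
      abel
    have hlim : Filter.Tendsto (fun n : ℕ => ((1 - P) ^ (r + 1 + 1) * B n) x) Filter.atTop
        (𝓝 (((1 - P) ^ (r + 1)) x)) := by
      rw [tendsto_iff_norm_sub_tendsto_zero]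
      have hb : ∀ n : ℕ, n ≠ 0 →
          ‖((1 - P) ^ (r + 1 + 1) * B n) x - ((1 - P) ^ (r + 1)) x‖
            ≤ (‖(1 - P) ^ r‖ * 2 * ‖x‖) * (1 / (n : ℝ)) := by
        intro n hn
        rw [norm_sub_rev]
        have : ((1 - P) ^ (r + 1)) x - ((1 - P) ^ (r + 1 + 1) * B n) x
            = ((1 - P) ^ r * ((n : ℂ)⁻¹ • (1 - P ^ n))) x := by
          rw [← hid n hn]; rfl
        rw [this]
        calc _ ≤ ‖(1 - P) ^ r * ((n : ℂ)⁻¹ • (1 - P ^ n))‖ * ‖x‖ :=
              ContinuousLinearMap.le_opNorm _ _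
          _ ≤ (‖(1 - P) ^ r‖ * ‖((n : ℂ)⁻¹ • (1 - P ^ n))‖) * ‖x‖ := by
              gcongr; exact norm_mul_le _ _
          _ ≤ (‖(1 - P) ^ r‖ * ((1 / (n : ℝ)) * 2)) * ‖x‖ := by
              gcongr
              rw [norm_smul]
              have h5 : ‖(n : ℂ)⁻¹‖ = 1 / (n : ℝ) := by simp
              rw [h5]
              gcongr
              calc ‖(1 : V →L[ℂ] V) - P ^ n‖ ≤ ‖(1 : V →L[ℂ] V)‖ + ‖P ^ n‖ := norm_sub_le _ _
                _ ≤ 1 + 1 := by
                    gcongr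
                    · exact ContinuousLinearMap.norm_id_le
                    · exact hPn n
                _ = 2 := by norm_num
          _ = _ := by ring
      have h0 : Filter.Tendsto (fun n : ℕ => (‖(1 - P) ^ r‖ * 2 * ‖x‖) * (1 / (n : ℝ)))
          Filter.atTop (𝓝 0) := by
        have := tendsto_one_div_atTop_nhds_zero_nat (𝕜 := ℝ)
        simpa using this.const_mul (‖(1 - P) ^ r‖ * 2 * ‖x‖)
      refine squeeze_zero' (Filter.Eventually.of_forall fun n => norm_nonneg _) ?_ h0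
      filter_upwards [Filter.eventually_ne_atTop 0] with n hn using hb n hn
    have hL : Filter.Tendsto (fun n : ℕ => L (((1 - P) ^ (r + 1 + 1) * B n) x)) Filter.atTop
        (𝓝 (L (((1 - P) ^ (r + 1)) x))) := (L.continuous.tendsto _).comp hlim
    have hz : ∀ n, L (((1 - P) ^ (r + 1 + 1) * B n) x) = 0 := fun n => h _ (hBS n)
    simp only [hz] at hL
    exact (tendsto_nhds_unique hL tendsto_const_nhds)

end Vale.Agent.P092.H613
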