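import Vale.Agent.P092.SD.Blocks
import Vale.Agent.P092.H171.Cl

/-!
P092, Team D: the bridge `H171.ClsStmt → SD.ClsStmt ℝ μ`.
-/

set_option linter.unusedSectionVars false

open scoped InnerProductSpace ZeroAtInfty
open ContinuousLinearMap MeasureTheory

namespace Vale.Agent.P092.H613

open Vale.Agent.P092.SD
open Vale.Agent.P092.H820 (inc3)

theorem tau_tau' (g : G3 ℝ) : tau ℝ (tau ℝ g) = g := by
  apply Subtype.ext
  have h : ∀ g : G3 ℝ, (tau ℝ g).1 = ((g⁻¹ : G3 ℝ).1).transpose := fun _ => rfl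
  rw [h, ← map_inv, h, inv_inv, Matrix.transpose_transpose]

theorem pic_isom {G Γ K : Type} [Group G] [TopologicalSpace G] [Group Γ]
    [NormedAddCommGroup K] [InnerProductSpace ℂ K] [CompleteSpace K]
    {π : G →* (K →L[ℂ] K)} {lam : Γ →* (K →L[ℂ] K)} {W : Set (K →L[ℂ] K)} {Ω : K}
    (h : RC.Pic π lam W Ω) (g : G) (ξ : K) : ‖π g ξ‖ = ‖ξ‖ := by
  have h1 : ⟪π g ξ, π g ξ⟫_ℂ = ⟪ξ, ξ⟫_ℂ := by
    rw [← adjoint_inner_right, h.adjP, ← _root_.mul_apply_eq_comp, ← map_mul,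
      inv_mul_cancel, map_one, _root_.one_apply_eq_self]
  rw [inner_self_eq_norm_sq_to_K, inner_self_eq_norm_sq_to_K] at h1
  have h2 : ‖π g ξ‖ ^ 2 = ‖ξ‖ ^ 2 := by exact_mod_cast h1
  exact (sq_eq_sq₀ (norm_nonneg _) (norm_nonneg _)).1 h2

/-- **Bridge** [D-CLS]. -/
theorem clsStmt_of (h : H171.ClsStmt) (μ : Measure ℝ) : SD.ClsStmt ℝ μ := by
  intro Γ K _ _ _ _ w π lam W Ω m q E F hL hQ c1 c2 c3
  obtain ⟨Q, hC⟩ := h π E F (pic_isom hL.pic) hL.pic.contP hL.e.pcov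
    (fun g l f => by
      have := hL.f.pcov (tau ℝ g) l f
      rw [← map_inv] at this
      change π (tau ℝ (tau ℝ g)) * F l f * π (tau ℝ (tau ℝ g⁻¹)) = _ at this
      rwa [tau_tau', tau_tau'] at this)
    hQ.inc hQ.agrE hQ.agrF c1 c2 c3
  refine ⟨Q, hC.nd, ?_, ?_, hC.right, hC.mulE, hC.mulF⟩
  · intro ψ x hx
    exact (hC.gen x (fun a f => (hL.e.cm a f x hx).symm) ψ).symm
  · intro γ ψ ψ' hψ
    exact hC.left (q γ) (lam γ) (lam γ⁻¹) (by rw [← map_mul, mul_inv_cancel, map_one])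
      (by rw [← map_mul, inv_mul_cancel, map_one]) (fun a f => hL.e.cov γ a f) ψ ψ' hψ

end Vale.Agent.P092.H613
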