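import Vale.Agent.P092.H613.AllS

/-!
P092, Team D, k = ℝ: in one leg everything commutes, from [D-I1] and [D-KEY].
-/

open MeasureTheory

namespace Vale.Agent.P092.H613

/-- (1)-(6) of #4334 for `k = ℝ`. -/
theorem legC (h1 : SD.I1Stmt ℝ volume) (h3 : SD.KeyStmt ℝ volume) : SD.LegComm ℝ volume :=
  SD.legComm_of h1 i2Stmt h3 allStmt

end Vale.Agent.P092.H613
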